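import Vale.Agent.P354IG.Glue
import Vale.Agent.P354AE.Exist

/-!
The chart solution K + glue w solves all structure equations.
-/

open scoped ContDiff
open Set Filter Topology

set_option linter.unusedSimpArgs false

namespace Vale.Agent.P354QF

open Vale.Agent.P354C Vale.Agent.P354H Vale.Agent.P354I Vale.Agent.P354A Vale.Agent.P354IG
open Vale.Agent.P354n (R4)

/-- A linear equation on an interval. -/
lemma ode {f c : ℝ → ℝ} (hc : Continuous c) {t : ℝ}
    (h : ∀ s ∈ uIcc 0 t, HasDerivAt f (c s * f s) s) : ∃ r, f t = Real.exp r * f 0 := by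
  have hF : ∀ s, HasDerivAt (fun s => ∫ x in (0 : ℝ)..s, c x) (c s) s :=
    fun s => (hc.integral_hasStrictDerivAt 0 s).hasDerivAt
  have hg : ∀ s ∈ uIcc 0 t, HasDerivAt (fun s => Real.exp (-∫ x in (0 : ℝ)..s, c x) * f s) 0 s :=
    fun s hs => ((hF s).fun_neg.exp.fun_mul (h s hs)).congr_deriv (by ring)
  have := (convex_uIcc 0 t).norm_image_sub_le_of_norm_hasDerivWithin_le (C := 0)
    (fun s hs => (hg s hs).hasDerivWithinAt) (fun _ _ => by simp) left_mem_uIcc right_mem_uIcc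
  simp only [zero_mul, norm_le_zero_iff, sub_eq_zero, intervalIntegral.integral_same, neg_zero,
    Real.exp_zero, one_mul] at this
  refine ⟨∫ x in (0 : ℝ)..t, c x, ?_⟩
  rw [← this, ← mul_assoc, ← Real.exp_add, add_neg_cancel, Real.exp_zero, one_mul]

/-- The derivative along the lines of n. -/
lemma line_n {V : R4 → Ix → ℝ} (hV : SmU V univ) (i : Ix) (c : ℝ) (y : ℝ × ℝ) (s : ℝ) :
    HasDerivAt (fun s : ℝ => V (s, c - s, y) i) (dfr V (s, c - s, y) 1 i) s := by
  have h1 : HasDerivAt (fun s : ℝ => ((s, c - s, y) : R4)) (1, -1, 0) s :=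
    (hasDerivAt_id s).prodMk (((hasDerivAt_id s).const_sub c).prodMk (hasDerivAt_const s y))
  exact ((contDiffOn_univ.1 (hV i)).differentiable (by simp) _).hasFDerivAt.comp_hasDerivAt s h1

/-- O and det P do not vanish. -/
lemma pos_of {V : R4 → Ix → ℝ} (hV : SmU V univ) {p : R4}
    (h : ∀ s ∈ uIcc 0 p.1, Solves V (s, p.2.1 + p.1 - s, p.2.2))
    (h0 : 0 < V (0, p.2.1 + p.1, p.2.2) .O ∧ detP (V (0, p.2.1 + p.1, p.2.2)) ≠ 0) :
    0 < V p .O ∧ detP (V p) ≠ 0 := by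
  have ct : ∀ i, Continuous fun s : ℝ => V (s, p.2.1 + p.1 - s, p.2.2) i := fun i =>
    continuous_iff_continuousAt.2 fun s => (line_n hV i _ _ s).continuousAt
  have e : ((p.1, p.2.1 + p.1 - p.1, p.2.2) : R4) = p := by simp
  obtain ⟨r, hr⟩ := ode (f := fun s => V (s, p.2.1 + p.1 - s, p.2.2) .O) (ct .omb) (t := p.1)
    fun s hs => (line_n hV .O _ _ s).congr_deriv (by
      have := h s hs .O
      simp only [res, resN, resL, cN, cL, angN, angL, linN, linL, quadN, quadL, angS, linS, quadS,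
        List.map, List.sum_cons, List.sum_nil, Int.cast_ofNat, Int.cast_neg, Int.cast_one,
        Int.cast_zero] at this
      linarith)
  obtain ⟨r', hr'⟩ := ode (f := fun s => detP (V (s, p.2.1 + p.1 - s, p.2.2)))
    (((ct .omb).sub (ct .Y11)).sub (ct .Y22) |>.const_mul 2) (t := p.1) fun s hs =>
      (((line_n hV .P11 _ _ s).fun_mul (line_n hV .P22 _ _ s)).fun_sub
        ((line_n hV .P12 _ _ s).fun_mul (line_n hV .P21 _ _ s))).congr_deriv (by
      have h1 := h s hs .P11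
      have h2 := h s hs .P12
      have h3 := h s hs .P21
      have h4 := h s hs .P22
      simp only [res, resN, resL, cN, cL, angN, angL, linN, linL, quadN, quadL, angS, linS, quadS,
        List.map, List.sum_cons, List.sum_nil, Int.cast_ofNat, Int.cast_neg, Int.cast_one,
        Int.cast_zero] at h1 h2 h3 h4
      simp only [detP, Pi.sub_apply]
      generalize V (s, p.2.1 + p.1 - s, p.2.2) = u at *
      linear_combination u .P22 * h1 + u .P11 * h4 - u .P21 * h2 - u .P12 * h3)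
  simp only [e, sub_zero] at hr hr'
  exact ⟨hr ▸ mul_pos (Real.exp_pos _) h0.1, hr' ▸ mul_ne_zero (Real.exp_pos _).ne' h0.2⟩

lemma c_r2 : Continuous r2 := by unfold r2; fun_prop

/-- Propagation of the constraints in a thin box around the point p. -/
lemma prop_box (hP : PROPAG) {V : R4 → Ix → ℝ} (hV : SmU V univ) {δ N s : ℝ} {p : R4}
    (hs : s = 1 ∨ s = -1) (h0 : 0 ≤ s * p.1) (hp : -δ < p.1) (hδ : 0 < δ) (hr : r2 p.2 < 25 / 4)
    (hN : |p.2.1| + 2 * |p.1| + 1 < N)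
    (hS : ∀ q : R4, -δ < q.1 → |q.2.1 + q.1| < N → r2 q.2 < 9 → detP (V q) ≠ 0 ∧ Solves V q)
    (hC : ∀ z : X3, |z.1| < N → r2 z < 9 → Constr (V (0, z)) (dfr V (0, z)))
    {ψ : R4 → ℝ} (hψ : ContDiff ℝ 1 ψ) (h1 : ψ p < 1 / 3)
    (h2 : ∀ q : R4, s * q.1 ∈ Icc 0 (s * p.1) → 0 ≤ ψ q ∧ ∀ c d R, |c| + |d| ≤ 1 →
      Causal s V (fun q => lf 0 0 c d q + ψ q - R) q) : Full (V p) (dfr V p) := by
  let φ : Fin 6 → R4 → ℝ := ![fun q => lf s 1 0 0 q - (lf s 1 0 0 p + 1),
    fun q => lf s (-1) 0 0 q - (lf s (-1) 0 0 p + 1),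
    fun q => lf 0 0 1 0 q + ψ q - (lf 0 0 1 0 p + 1 / 3),
    fun q => lf 0 0 (-1) 0 q + ψ q - (lf 0 0 (-1) 0 p + 1 / 3),
    fun q => lf 0 0 0 1 q + ψ q - (lf 0 0 0 1 p + 1 / 3),
    fun q => lf 0 0 0 (-1) q + ψ q - (lf 0 0 0 (-1) p + 1 / 3)]
  let D : Set R4 := uIcc 0 p.1 ×ˢ Icc (p.2.1 - (|p.1| + 1)) (p.2.1 + (|p.1| + 1)) ×ˢ
    Icc (p.2.2.1 - 1 / 3) (p.2.2.1 + 1 / 3) ×ˢ Icc (p.2.2.2 - 1 / 3) (p.2.2.2 + 1 / 3)
  have es : s * p.1 = |p.1| := by
    rcases hs with rfl | rfl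
    · rw [one_mul, abs_of_nonneg (by linarith)]
    · rw [neg_one_mul, abs_of_nonpos (by linarith)]
  have hD : ∀ q ∈ D, -δ < q.1 ∧ |q.2.1 + q.1| < N ∧ r2 q.2 < 9 := by
    rintro q ⟨a1, a2, a3, a4⟩
    have b1 := abs_le.1 (le_refl |p.1|)
    have b2 := abs_le.1 (le_refl |p.2.1|)
    have b3 : min 0 p.1 ≤ q.1 ∧ q.1 ≤ max 0 p.1 := a1
    have b4 : -|p.1| ≤ min 0 p.1 := le_min (by linarith [abs_nonneg p.1]) b1.1
    have b5 : max 0 p.1 ≤ |p.1| := max_le (abs_nonneg _) b1.2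
    refine ⟨(lt_min (by linarith) hp).trans_le b3.1,
      abs_lt.2 ⟨by linarith [a2.1], by linarith [a2.2]⟩, ?_⟩
    have c1 : (q.2.2.1 - p.2.2.1) ^ 2 ≤ (1 / 3) ^ 2 :=
      sq_le_sq' (by linarith [a3.1]) (by linarith [a3.2])
    have c2 : (q.2.2.2 - p.2.2.2) ^ 2 ≤ (1 / 3) ^ 2 :=
      sq_le_sq' (by linarith [a4.1]) (by linarith [a4.2])
    simp only [r2] at hr ⊢
    nlinarith [sq_nonneg (5 * (q.2.2.1 - p.2.2.1) - p.2.2.1),
      sq_nonneg (5 * (q.2.2.2 - p.2.2.2) - p.2.2.2)]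
  have hin : ∀ q : R4, s * q.1 ∈ Icc 0 (s * p.1) → (∀ i, φ i q < 0) → q ∈ D := fun q hq hq' => by
    have a0 := hq' 0
    have a1 := hq' 1
    have a2 := hq' 2
    have a3 := hq' 3
    have a4 := hq' 4
    have a5 := hq' 5
    simp only [φ, Matrix.cons_val, lf_ap] at a0 a1 a2 a3 a4 a5
    have b := (h2 q hq).1
    have b1 := hq.1
    have b2 := hq.2
    refine ⟨?_, ⟨by linarith, by linarith⟩, ⟨by linarith, by linarith⟩, by linarith, by linarith⟩
    rcases hs with rfl | rfl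
    · exact Icc_subset_uIcc ⟨by linarith, by linarith⟩
    · exact Icc_subset_uIcc' ⟨by linarith, by linarith⟩
  have hO : IsOpen {q : R4 | -δ < q.1 ∧ |q.2.1 + q.1| < N ∧ r2 q.2 < 9} :=
    (isOpen_lt continuous_const continuous_fst).inter
      ((isOpen_lt (f := fun q : R4 => |q.2.1 + q.1|) (by fun_prop) continuous_const).inter
        (isOpen_lt (c_r2.comp continuous_snd) continuous_const))
  refine hP V (Fin 6) φ _ D s 0 (s * p.1) hs hO
    (isCompact_uIcc.prod (isCompact_Icc.prod (isCompact_Icc.prod isCompact_Icc))) hD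
    (fun i => (hV i).mono (subset_univ _)) (fun q hq => hS q hq.1 hq.2.1 hq.2.2) (fun i => ?_)
    (fun q hq hq' => ?_) (fun q hq hq' => ?_) p (by simpa using h0) fun i => ?_
  · fin_cases i
    · exact (ContinuousLinearMap.contDiff _).sub contDiff_const
    · exact (ContinuousLinearMap.contDiff _).sub contDiff_const
    all_goals exact ((ContinuousLinearMap.contDiff _).add hψ).sub contDiff_const
  · rw [sub_zero] at hq
    refine ⟨hin q hq hq', fun i => ?_⟩
    fin_cases i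
    · exact causal_x hs (Or.inl rfl) V _ q
    · exact causal_x hs (Or.inr rfl) V _ q
    all_goals exact (h2 q hq).2 _ _ _ (by simp)
  · have := hD q (hin q (by simpa [hq] using h0) hq')
    obtain ⟨t, z⟩ := q
    obtain rfl : t = 0 := hq
    exact hC z (by simpa using this.2.1) this.2.2
  · fin_cases i <;> simp only [φ, lf_ap] <;> simp <;> linarith

/-- The angular functions for positive times. -/
lemma causal_fwd {V : R4 → Ix → ℝ} {ψ : R4 → ℝ} {q : R4} {α β e c d : ℝ} (R : ℝ)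
    (hψ : HasFDerivAt ψ (lf (α + β) α 0 0) q) (hc : |c| + |d| ≤ 1) (he : 0 ≤ e) (hβ : 3 * e ≤ β)
    (hb : |V q .b1| ≤ 2 * α + e ∧ |V q .b2| ≤ 2 * α + e)
    (hP : |V q .P11| ≤ e ∧ |V q .P12| ≤ e ∧ |V q .P21| ≤ e ∧ |V q .P22| ≤ e) :
    Causal 1 V (fun q => lf 0 0 c d q + ψ q - R) q := by
  have k : ∀ {x y B : ℝ}, |x| ≤ B → |y| ≤ B → |c * x + d * y| ≤ B := fun {x y B} hx hy => by
    refine (abs_add_le _ _).trans ?_
    rw [abs_mul, abs_mul]
    nlinarith [abs_nonneg c, abs_nonneg d, mul_le_mul_of_nonneg_left hx (abs_nonneg c),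
      mul_le_mul_of_nonneg_left hy (abs_nonneg d), (abs_nonneg x).trans hx]
  have k1 := abs_le.1 (k hb.1 hb.2)
  have k2 := sq_le_sq' (abs_le.1 (k hP.1 hP.2.1)).1 (abs_le.1 (k hP.1 hP.2.1)).2
  have k3 := sq_le_sq' (abs_le.1 (k hP.2.2.1 hP.2.2.2)).1 (abs_le.1 (k hP.2.2.1 hP.2.2.2)).2
  unfold Causal
  rw [(((lf 0 0 c d).hasFDerivAt.fun_add hψ).sub_const R).fderiv]
  simp only [add_apply, lf_ap, fr, vec, E, Matrix.cons_val]
  refine ⟨by linarith, by linarith, ?_⟩
  nlinarith [mul_le_mul_of_nonneg_left k1.1 (by linarith : 0 ≤ β), mul_le_mul_of_nonneg_left hβ he,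
    mul_le_mul_of_nonneg_left hβ (by linarith : 0 ≤ β)]

variable {k ρ ε δ cb : ℝ} {a : ℝ → ℝ} {C : ℕ → ℝ} {K : R4 → Ix → ℝ} {w0 : X3 → Ix → ℝ}
  {w : ℕ → R4 → Ix → ℝ}

lemma sm_ub (hK : IsBK k ρ C K) (i : Ix) : ContDiff ℝ ∞ (Ub k K i) :=
  (contDiffOn_univ.1 (hK.smooth i)).sub contDiff_const

lemma bg_pb (hK : IsBK k ρ C K) {p : R4} (hp : 0 ≤ p.1) (i : Ix) :
    Pb 5 (Ub k K i) p (gB k (C 5 * √ρ) i p.1) := by
  intro α hα
  rw [dxl_eq_pdl α (sm_ub hK i)]
  by_cases hi : isQ i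
  · have h0 : U0 k i = 0 := by cases i <;> first | rfl | exact absurd hi (by decide)
    have := hK.boundQ 5 p.1 hp i hi α hα p.2
    rw [show sl (Ub k K i) p.1 = fun z => K (p.1, z) i from
      funext fun z => by simp [sl, Ub, h0], gB, if_pos hi, ex]
    rwa [show -(16 * k / 16) * p.1 = -k * p.1 by ring]
  · have := hK.bound 5 p.1 (by linarith) i α hα p.2
    rw [gB, if_neg hi, ex]
    rwa [show -(8 * k / 16) * p.1 = -k * p.1 / 2 by ring]

lemma sum_pb (hK : IsBK k ρ C K) {v : R4 → Ix → ℝ} {i : Ix} (hv : ContDiff ℝ ∞ (cmp v i))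
    {p : R4} (hp : 0 ≤ p.1) {n : ℕ} (hn : n ≤ 5) {c : ℝ} (h : Pb n (cmp v i) p c) :
    Pb n (Ub k (K + v) i) p (c + gB k (C 5 * √ρ) i p.1) := by
  intro α hα
  rw [show Ub k (K + v) i = fun q => cmp v i q + Ub k K i q from
    funext fun q => by simp only [Ub, P354A.cmp, Pi.add_apply]; ring,
    dxl_add α hv (sm_ub hK i)]
  exact (abs_add_le _ _).trans (add_le_add (h α hα) (bg_pb hK hp i α (hα.trans hn)))

lemma glue_ev (hK : IsBK k ρ C K) (h : Fam k a ε δ cb K w0 w) {p : R4} (hp : -δ < p.1) {n : ℕ}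
    (hn : |p.1| + |p.2.1| < n) : K + glue w =ᶠ[𝓝 p] K + w n := by
  have hO : IsOpen {q : R4 | -δ < q.1 ∧ |q.1| + |q.2.1| < n} :=
    (isOpen_lt continuous_const continuous_fst).inter
      (isOpen_lt (f := fun q : R4 => |q.1| + |q.2.1|) (by fun_prop) continuous_const)
  filter_upwards [hO.mem_nhds ⟨hp, hn⟩] with q hq
  simp only [Pi.add_apply, P354IG.glue k a ε δ cb K w0 w hK.smooth h n q hq.1 hq.2]

theorem full (hP : PROPAG) : FULL := by
  intro k a A A0 cb C hk hW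
  have hA0 := hW.A0_nn
  obtain ⟨B, hB⟩ : ∃ B, B = k / 2 + |C 0| * Real.exp (k / 2) + |cb| := ⟨_, rfl⟩
  have hB0 : 0 ≤ B := by rw [hB]; positivity
  obtain ⟨Q, hQ⟩ : ∃ Q, Q = A0 / 2 + 6 * (1 + |C 5|) / k := ⟨_, rfl⟩
  have hQ0 : 0 ≤ Q := by rw [hQ]; positivity
  obtain ⟨ν, hν0, hν⟩ : ∃ ν, 0 < ν ∧ ν * (1 + 4 * k + 3 * Q + 6 * B) = 1 :=
    ⟨1 / (1 + 4 * k + 3 * Q + 6 * B), by positivity, by field_simp⟩
  have n1 := mul_pos hν0 hk
  have n2 := mul_nonneg hν0.le hQ0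
  have n3 := mul_nonneg hν0.le hB0
  have hν1 : ν ≤ 1 := by linarith
  refine ⟨ν ^ 2, by positivity, B, fun ρ hρ ε hε δ hδ K u w hK hu hF => ?_⟩
  have hνν : ν ^ 2 ≤ ν := by nlinarith
  have hε1 : ε ≤ ν := hε.2.trans hνν
  have hδ1 : δ ≤ ν := hδ.2.trans hνν
  have hρ1 : √ρ ≤ ν := Real.sqrt_le_iff.2 ⟨hν0.le, hρ.2⟩
  have sV : ∀ n, SmU (K + w n) univ := fun n i => (hK.smooth i).add (hF.smooth n i).contDiffOn
  have ex_n : ∀ p : R4, ∃ n : ℕ, |p.2.1| + 2 * |p.1| + 1 < n ∧ |p.1| + |p.2.1| < n := fun p => by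
    obtain ⟨n, hn⟩ := exists_nat_gt (|p.2.1| + 2 * |p.1| + 1)
    exact ⟨n, hn, by linarith [abs_nonneg p.1]⟩
  have ini : ∀ (n : ℕ) (z : X3), |z.1| ≤ n → r2 z ≤ 9 → (K + w n) (0, z) = u z := fun n z h1 h2 => by
    funext i
    simp only [Pi.add_apply, hF.init, cx_one h1, one_smul, wd, cy,
      Real.smoothTransition.one_of_one_le (show 1 ≤ (16 - r2 z) / 7 by linarith)]
    ring
  have bk : ∀ n (q : R4), q.1 ∈ Icc (-δ) 0 → ∀ i, |(K + w n) q i| ≤ B := fun n q hq i => by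
    have h1 : |K q i - U0 k i| ≤ C 0 * √ρ * Real.exp (-k * q.1 / 2) :=
      hK.bound 0 q.1 (by linarith [hq.1]) i [] le_rfl q.2
    have h2 : |U0 k i| ≤ k / 2 := by
      cases i <;> simp only [U0, abs_zero, neg_div, abs_neg, abs_of_pos (half_pos hk), le_refl,
        (half_pos hk).le]
    have h3 : C 0 * √ρ * Real.exp (-k * q.1 / 2) ≤ |C 0| * Real.exp (k / 2) :=
      mul_le_mul ((mul_le_mul (le_abs_self _) (hρ1.trans hν1) (Real.sqrt_nonneg _)
        (abs_nonneg _)).trans_eq (mul_one _))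
        (Real.exp_le_exp.2 (by nlinarith [hq.1])) (Real.exp_pos _).le (abs_nonneg _)
    have h4 := hF.back n q hq i
    have h5 := le_abs_self cb
    rw [abs_le] at h1 h2 h4 ⊢
    simp only [Pi.add_apply]
    constructor <;> linarith [h1.1, h1.2, h2.1, h2.2, h4.1, h4.2]
  have sol : ∀ n (q : R4), -δ ≤ q.1 → r2 q.2 < 16 → Solves (K + w n) q := fun n q h1 h2 i => by
    have h3 : Real.exp (-k * q.1) < 3 / 2 :=
      (Real.exp_le_exp.2 (show -k * q.1 ≤ 1 / 4 by nlinarith)).trans_lt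
        ((Real.exp_bound_div_one_sub_of_interval' (by norm_num) (by norm_num)).trans (by norm_num))
    rw [hF.eqn n q h1 i, res, (hK.full q h3 h2).eqN, (hK.full q h3 h2).eqL, add_zero]
  have pos : ∀ (n : ℕ) (q : R4), -δ < q.1 → |q.2.1 + q.1| < n → r2 q.2 < 9 →
      0 < (K + w n) q .O ∧ detP ((K + w n) q) ≠ 0 := fun n q h1 h2 h3 => by
    refine pos_of (sV n) (fun s hs => sol n _ ?_ (show r2 q.2 < 16 by linarith)) ?_
    · exact (le_min (by linarith [hδ.1]) h1.le).trans hs.1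
    · rw [ini n (q.2.1 + q.1, q.2.2) h2.le h3.le]
      exact hu.pos _
  refine ⟨fun i p hp => ?_, fun z hz => ?_, fun p hp hr => ?_, fun p hp i => ?_,
    fun p hp i hi => ?_, fun p hp i => ?_⟩
  · obtain ⟨n, -, hn⟩ := ex_n p
    exact ((contDiffOn_univ.1 (sV n i)).contDiffAt.congr_of_eventuallyEq
      ((glue_ev hK hF hp hn).mono fun q hq => congrFun hq i)).contDiffWithinAt
  · obtain ⟨n, -, hn⟩ := ex_n (0, z)
    rw [(glue_ev hK hF (p := (0, z)) (by simpa using hδ.1) hn).eq_of_nhds]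
    exact ini n z (by simpa using hn.le) hz
  · obtain ⟨n, hn', hn⟩ := ex_n p
    have ev := glue_ev hK hF hp hn
    rw [P354IG.dfr_congr ev, ev.eq_of_nhds]
    refine ⟨?_, pos n p hp ((abs_add_le _ _).trans_lt (by linarith)) (by linarith)⟩
    have hS : ∀ q : R4, -δ < q.1 → |q.2.1 + q.1| < n → r2 q.2 < 9 →
        detP ((K + w n) q) ≠ 0 ∧ Solves (K + w n) q :=
      fun q h1 h2 h3 => ⟨(pos n q h1 h2 h3).2, sol n q h1.le (by linarith)⟩
    have hC : ∀ z : X3, |z.1| < n → r2 z < 9 →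
        Constr ((K + w n) (0, z)) (dfr (K + w n) (0, z)) := fun z h1 h2 => by
      refine hu.constr _ z (fun i => (contDiffOn_univ.1 (sV n i)).contDiffAt) ?_
      have hO : IsOpen {z : X3 | |z.1| < n ∧ r2 z < 9} := (isOpen_lt (f := fun z : X3 => |z.1|)
        (by fun_prop) continuous_const).inter (isOpen_lt c_r2 continuous_const)
      filter_upwards [hO.mem_nhds ⟨h1, h2⟩] with y hy using ini n y hy.1.le hy.2.le
    rcases le_total 0 p.1 with h0 | h0
    · obtain ⟨η, hη⟩ : ∃ η, η = C 5 * √ρ := ⟨_, rfl⟩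
      have hη0 : 0 ≤ η := by
        have := (bg_pb hK h0 .O).nonneg
        rw [gB, ← hη] at this
        exact nonneg_of_mul_nonneg_left this (ex_pos _ _ _)
      have hη1 : η ≤ |C 5| * ν := hη ▸ mul_le_mul (le_abs_self _) hρ1 (Real.sqrt_nonneg _)
        (abs_nonneg _)
      have cA : ContDiff ℝ 1 A := contDiff_one_iff_deriv.2 ⟨fun y => (hW.prim y).differentiableAt,
        by rw [show deriv A = a from funext fun y => (hW.prim y).deriv]; exact hW.ca⟩
      have hl : 0 ≤ 6 * (ε + η) / k := by have := hε.1; positivity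
      refine prop_box hP (sV n) (Or.inl rfl) (by linarith) hp hδ.1 hr hn' hS hC
        (ψ := fun q => ε / 2 * A (lf 1 1 0 0 q) + 6 * (ε + η) / k * (1 - ex k 8 (lf 1 0 0 0 q)))
        ((contDiff_const.mul (cA.comp (ContinuousLinearMap.contDiff _))).add
          (contDiff_const.mul (contDiff_const.sub (by unfold ex; fun_prop)))) ?_
        fun q hq => ⟨?_, fun c d R hc => ?_⟩
      · have h1 := mul_le_mul_of_nonneg_left (hW.bd (lf 1 1 0 0 p)) (half_pos hε.1).le
        have h2 := mul_nonneg hl (ex_pos k 8 (lf 1 0 0 0 p)).le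
        have h3 : 6 * (ε + η) / k ≤ ν * (6 * (1 + |C 5|) / k) := by
          rw [← mul_div_assoc]
          exact div_le_div_of_nonneg_right (by linarith) hk.le
        have h4 := mul_le_mul_of_nonneg_right hε1 hA0
        have h5 : ν * Q = ν * A0 / 2 + ν * (6 * (1 + |C 5|) / k) := by rw [hQ]; ring
        linarith
      · have h1 := ex_le hk (m := 8) (t := lf 1 0 0 0 q) (by norm_num)
          (by simpa [lf_ap] using hq.1)
        exact add_nonneg (mul_nonneg (half_pos hε.1).le (hW.nn _))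
          (mul_nonneg hl (by linarith))
      · have hq0 : 0 ≤ q.1 := by simpa using hq.1
        have he := ex_pos k 8 q.1
        have hε0 := mul_pos hε.1 he
        have hY := fun i => (sum_pb hK (hF.smooth n i) hq0 le_rfl ((hF.out n q hq0).Y i)).zero
        have hZ := fun i hi => (sum_pb hK (hF.smooth n i) hq0 (by norm_num)
          ((hF.out n q hq0).Z i hi)).zero
        have y1 := hY .b1
        have y2 := hY .b2
        have z1 := hZ .P11 rfl
        have z2 := hZ .P12 rfl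
        have z3 := hZ .P21 rfl
        have z4 := hZ .P22 rfl
        simp only [Ub, U0, sub_zero, bY, cls, bZ, gB, isQ, ← hη, Bool.false_eq_true, if_false]
          at y1 y2 z1 z2 z3 z4
        refine causal_fwd (α := ε / 2 * a (q.1 + q.2.1)) (β := 3 * ((ε + η) * ex k 8 q.1))
          (e := (ε + η) * ex k 8 q.1) R ?_ hc (by have := hε.1; positivity) le_rfl
          ⟨by linarith, by linarith⟩ ⟨by linarith, by linarith, by linarith, by linarith⟩
        have d1 := ((hW.prim (lf 1 1 0 0 q)).comp_hasFDerivAt q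
          (lf 1 1 0 0).hasFDerivAt).const_mul (ε / 2)
        have d0 : HasDerivAt (ex k 8) (-(8 * k / 16) * ex k 8 (lf 1 0 0 0 q)) (lf 1 0 0 0 q) :=
          (((hasDerivAt_id _).const_mul (-(8 * k / 16))).exp).congr_deriv (by simp [ex, mul_comm])
        have d2 := ((d0.comp_hasFDerivAt q (lf 1 0 0 0).hasFDerivAt).const_sub 1).const_mul
          (6 * (ε + η) / k)
        refine (d1.fun_add d2).congr_fderiv (ContinuousLinearMap.ext fun v => ?_)
        simp only [add_apply, smul_apply, neg_apply, lf_ap, smul_eq_mul, one_mul, zero_mul,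
          add_zero]
        field_simp
        ring
    · refine prop_box hP (sV n) (Or.inr rfl) (by linarith) hp hδ.1 hr hn' hS hC
        (ψ := lf (2 * B * -1) 0 0 0) (ContinuousLinearMap.contDiff _) ?_
        fun q hq => ⟨?_, fun c d R hc => ?_⟩
      · simp only [lf_ap]
        nlinarith [mul_le_mul_of_nonneg_left (show -p.1 ≤ ν by linarith) hB0]
      · simp only [lf_ap]
        nlinarith [mul_nonneg hB0 hq.1]
      · rw [show (fun q => lf 0 0 c d q + lf (2 * B * -1) 0 0 0 q - R) =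
          fun q => lf (2 * B * -1) 0 c d q - R from funext fun q => by simp only [lf_ap]; ring]
        exact causal_y (Or.inr rfl) hc R (bk n q ⟨by linarith [hq.2], by linarith [hq.1]⟩)
  · obtain ⟨n, -, hn⟩ := ex_n p
    exact P354AE.Pb_congr ((glue_ev hK hF (by linarith [hδ.1]) hn).mono fun q hq => by
      simp only [Ub, hq]) (sum_pb hK (hF.smooth n i) hp le_rfl ((hF.out n p hp).Y i))
  · obtain ⟨n, -, hn⟩ := ex_n p
    exact P354AE.Pb_congr ((glue_ev hK hF (by linarith [hδ.1]) hn).mono fun q hq => by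
      simp only [Ub, hq]) (sum_pb hK (hF.smooth n i) hp (by norm_num) ((hF.out n p hp).Z i hi))
  · obtain ⟨n, -, hn⟩ := ex_n p
    rw [(glue_ev hK hF hp.1 hn).eq_of_nhds]
    exact bk n p ⟨hp.1.le, hp.2⟩ i

end Vale.Agent.P354QF
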