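import Vale.Agent.P354QF.Full
import Vale.Agent.P354E2.Glue
import Vale.Agent.P354P.Compat
import Vale.Agent.P354C.Propag

/-!
The chart solution for a background with a source solves all structure equations.
-/

open scoped ContDiff
open Set Filter Topology

namespace Vale.Agent.P354QF

open Vale.Agent.P354C Vale.Agent.P354H Vale.Agent.P354I Vale.Agent.P354A Vale.Agent.P354IG
open Vale.Agent.P354n (R4)
open Vale.Agent.P354P (Trav lens rr rr_smooth exists_trav)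

/-- A field which agrees with the solutions V n on diamonds solves all structure equations. -/
lemma chart_full {U : R4 → Ix → ℝ} {V : ℕ → R4 → Ix → ℝ} {u : X3 → Ix → ℝ} {I : Set ℝ}
    (hI : IsOpen I) (hc : ∀ t ∈ I, uIcc 0 t ⊆ I) (h0 : 0 ∈ I) (hu : IsInit u)
    (sV : ∀ n, SmU (V n) univ)
    (eq : ∀ (n : ℕ) (p : R4), p.1 ∈ I → |p.1| + |p.2.1| < n → U p = V n p)
    (ini : ∀ (n : ℕ) (z : X3), |z.1| ≤ n → r2 z ≤ 9 → V n (0, z) = u z)
    (sol : ∀ (n : ℕ) (q : R4), q.1 ∈ I → r2 q.2 < 16 → |q.2.1| ≤ n → Solves (V n) q)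
    (tr : ∀ t ∈ I, ∃ s T, (s = 1 ∨ s = -1) ∧ s * t ∈ Icc 0 T ∧ (∀ t', s * t' ∈ Icc 0 T → t' ∈ I) ∧
      Trav U s T (1 / 20)) :
    SmU U {p | p.1 ∈ I} ∧ (∀ z, r2 z ≤ 9 → U (0, z) = u z) ∧ ∀ p : R4, p.1 ∈ I → r2 p.2 < 25 / 4 →
      Full (U p) (dfr U p) ∧ 0 < U p .O ∧ detP (U p) ≠ 0 := by
  have ev : ∀ p : R4, p.1 ∈ I → ∃ n : ℕ, |p.1| + |p.2.1| < n ∧ U =ᶠ[𝓝 p] V n := fun p hp => by
    obtain ⟨n, hn⟩ := exists_nat_gt (|p.1| + |p.2.1|)
    have hO : IsOpen {q : R4 | q.1 ∈ I ∧ |q.1| + |q.2.1| < n} := (hI.preimage continuous_fst).inter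
      (isOpen_lt (f := fun q : R4 => |q.1| + |q.2.1|) (by fun_prop) continuous_const)
    exact ⟨n, hn, by filter_upwards [hO.mem_nhds ⟨hp, hn⟩] with q hq using eq n q hq.1 hq.2⟩
  have sA : ∀ p : R4, p.1 ∈ I → ∀ i, ContDiffAt ℝ ∞ (fun z => U z i) p := fun p hp i => by
    obtain ⟨n, -, e⟩ := ev p hp
    exact (contDiffOn_univ.1 (sV n i)).contDiffAt.congr_of_eventuallyEq
      (e.mono fun q hq => congrFun hq i)
  have i0 : ∀ z, r2 z ≤ 9 → U (0, z) = u z := fun z hz => by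
    obtain ⟨n, hn, e⟩ := ev (0, z) h0
    rw [e.eq_of_nhds]
    exact ini n z (by simpa using hn.le) hz
  have pos : ∀ q : R4, q.1 ∈ I → r2 q.2 < 9 →
      (0 < U q .O ∧ detP (U q) ≠ 0) ∧ Solves U q := fun q h1 h2 => by
    obtain ⟨n, hn, e⟩ := ev q h1
    refine ⟨?_, fun i => (res_congr e i).trans
      (sol n q h1 (by linarith) (by linarith [abs_nonneg q.1]) i)⟩
    rw [e.eq_of_nhds]
    refine pos_of (sV n) (fun s hs => sol n _ (hc _ h1 hs) (show r2 q.2 < 16 by linarith) ?_) ?_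
    · have := abs_sub_right_of_mem_uIcc hs
      rw [sub_zero] at this
      show |q.2.1 + q.1 - s| ≤ n
      rw [add_sub_assoc]
      linarith [abs_add_le q.2.1 (q.1 - s)]
    · rw [ini n (q.2.1 + q.1, q.2.2) (by linarith [abs_add_le q.2.1 q.1]) h2.le]
      exact hu.pos _
  refine ⟨fun i p hp => (sA p hp i).contDiffWithinAt, i0, fun p hp hr =>
    ⟨?_, (pos p hp (by linarith)).1⟩⟩
  obtain ⟨s, T, e1, e2, e3, e4⟩ := tr p.1 hp
  have r0 : 0 ≤ rr p := add_nonneg (sq_nonneg _) (sq_nonneg _)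
  have r1 : rr p < 25 / 4 := hr
  obtain ⟨φ, D, d1, d2, d3, d4, d5⟩ := lens (a := -2) (b := 8) e4 e1 (by norm_num) e2
    (by linarith) (by linarith)
  have sub : D ⊆ {q : R4 | q.1 ∈ I ∧ rr q < 9} := fun q hq =>
    ⟨e3 _ (d2 q hq).1, by linarith [(d2 q hq).2.2]⟩
  refine propag U _ φ _ D s 0 T e1 ((hI.preimage continuous_fst).inter
    (isOpen_lt rr_smooth.continuous continuous_const)) d1 sub
    (fun i q hq => (sA q hq.1 i).contDiffWithinAt)
    (fun q hq => ⟨(pos q hq.1 hq.2).1.2, (pos q hq.1 hq.2).2⟩) d3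
    (fun q hq => d4 q (by rwa [sub_zero] at hq)) (fun q hq k => ?_) p (by rwa [sub_zero]) d5
  obtain ⟨t, z⟩ := q
  obtain rfl : t = 0 := hq
  have m := sub (d4 _ ⟨by simp, by simpa using e2.1.trans e2.2⟩ k).1
  refine hu.constr _ z (sA _ h0) ?_
  filter_upwards [(isOpen_lt c_r2 continuous_const).mem_nhds m.2] with y hy using i0 y hy.le

/-- The initial values of K + w n. -/
lemma init_eq {K W : R4 → Ix → ℝ} {u : X3 → Ix → ℝ} {n : ℕ} {z : X3}
    (h : W (0, z) = cx n z.1 • wd K u z) (h1 : |z.1| ≤ n) (h2 : r2 z ≤ 9) :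
    (K + W) (0, z) = u z := by
  funext i
  simp only [Pi.add_apply, h, cx_one h1, one_smul, wd, cy,
    Real.smoothTransition.one_of_one_le (show 1 ≤ (16 - r2 z) / 7 by linarith)]
  ring

/-- The source cancels. -/
lemma sol_eq {K f W : R4 → Ix → ℝ} {n : ℕ} {q : R4} (h : P354AS.EqnS K (cut n f) W q)
    (h1 : |q.2.1| ≤ n) (h2 : ∀ i, res (K q) (dfr K q) i = f q i) : Solves (K + W) q := fun i => by
  rw [h i, h2 i, cut, cx_one h1, one_smul, sub_self]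

variable {k ρ δ1 ε1 : ℝ} {n1 : ℕ} {C : ℕ → ℝ} {K f : R4 → Ix → ℝ}

lemma sm_ub2 (hK : IsBS k ρ δ1 ε1 n1 C K f) (i : Ix) : ContDiff ℝ ∞ (Ub k K i) :=
  (contDiffOn_univ.1 (hK.smooth.1 i)).sub contDiff_const

lemma bg_pb2 (hK : IsBS k ρ δ1 ε1 n1 C K f) {p : R4} (hp : 0 ≤ p.1) (i : Ix) :
    Pb 5 (Ub k K i) p (gB k (C 5 * √ρ) i p.1) := by
  intro α hα
  rw [dxl_eq_pdl α (sm_ub2 hK i)]
  by_cases hi : isQ i
  · have h0 : U0 k i = 0 := by cases i <;> first | rfl | exact absurd hi (by decide)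
    have := hK.boundQ 5 p.1 hp i hi α hα p.2
    rw [show sl (Ub k K i) p.1 = fun z => K (p.1, z) i from
      funext fun z => by simp [sl, Ub, h0], gB, if_pos hi, ex]
    rwa [show -(16 * k / 16) * p.1 = -k * p.1 by ring]
  · have := hK.bound 5 p.1 (by linarith) i α hα p.2
    rw [gB, if_neg hi, ex]
    rwa [show -(8 * k / 16) * p.1 = -k * p.1 / 2 by ring]

lemma sum_pb2 (hK : IsBS k ρ δ1 ε1 n1 C K f) {v : R4 → Ix → ℝ} {i : Ix}
    (hv : ContDiff ℝ ∞ (cmp v i)) {p : R4} (hp : 0 ≤ p.1) {n : ℕ} (hn : n ≤ 5) {c : ℝ}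
    (h : Pb n (cmp v i) p c) : Pb n (Ub k (K + v) i) p (c + gB k (C 5 * √ρ) i p.1) := by
  intro α hα
  rw [show Ub k (K + v) i = fun q => cmp v i q + Ub k K i q from
    funext fun q => by simp only [Ub, P354A.cmp, Pi.add_apply]; ring,
    dxl_add α hv (sm_ub2 hK i)]
  exact (abs_add_le _ _).trans (add_le_add (h α hα) (bg_pb2 hK hp i α (hα.trans hn)))

theorem full2 : FULL2 := by
  intro k a A A0 cb C hk hW
  obtain ⟨B, hB⟩ : ∃ B, B = k / 2 + |C 0| * Real.exp (k / 2) + |cb| := ⟨_, rfl⟩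
  obtain ⟨μ, hμ, H⟩ := exists_trav (cb := B) hk hW (by norm_num : (0 : ℝ) < 1 / 20)
  obtain ⟨ν, hν0, hν⟩ : ∃ ν, 0 < ν ∧ ν * (1 + |C 5|) = min μ 1 :=
    ⟨min μ 1 / (1 + |C 5|), by positivity, by field_simp⟩
  have n1 := mul_nonneg hν0.le (abs_nonneg (C 5))
  have m1 := min_le_left μ 1
  have hν1 : ν ≤ 1 := by linarith [min_le_right μ 1]
  refine ⟨ν ^ 2, by positivity, B, fun ρ hρ ε hε δ hδ δ1 ε1 n1 K f u w hδ' hK hu hF => ?_⟩
  have hνν : ν ^ 2 ≤ ν := by nlinarith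
  have hδ1 : δ ≤ ν := hδ.2.trans hνν
  have hρ1 : √ρ ≤ ν := Real.sqrt_le_iff.2 ⟨hν0.le, hρ.2⟩
  have gl : ∀ (n : ℕ) (p : R4), -δ < p.1 → |p.1| + |p.2.1| < n → (K + glue w) p = (K + w n) p :=
    fun n p h1 h2 => by
      simp only [Pi.add_apply, P354E2.glue2 k a ε δ cb K f _ w hK.smooth.1 hF n p h1 h2]
  have ev : ∀ p : R4, -δ < p.1 → ∃ n : ℕ, K + glue w =ᶠ[𝓝 p] K + w n := fun p hp => by
    obtain ⟨n, hn⟩ := exists_nat_gt (|p.1| + |p.2.1|)
    have hO : IsOpen {q : R4 | -δ < q.1 ∧ |q.1| + |q.2.1| < n} :=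
      (isOpen_lt continuous_const continuous_fst).inter
        (isOpen_lt (f := fun q : R4 => |q.1| + |q.2.1|) (by fun_prop) continuous_const)
    exact ⟨n, by filter_upwards [hO.mem_nhds ⟨hp, hn⟩] with q hq using gl n q hq.1 hq.2⟩
  have bk : ∀ q : R4, q.1 ∈ Ioc (-δ) 0 → ∀ i, |(K + glue w) q i| ≤ B := fun q hq i => by
    have h1 : |K q i - U0 k i| ≤ C 0 * √ρ * Real.exp (-k * q.1 / 2) :=
      hK.bound 0 q.1 (by linarith [hq.1]) i [] le_rfl q.2
    have h2 : |U0 k i| ≤ k / 2 := by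
      cases i <;> simp only [U0, abs_zero, neg_div, abs_neg, abs_of_pos (half_pos hk), le_refl,
        (half_pos hk).le]
    have h3 : C 0 * √ρ * Real.exp (-k * q.1 / 2) ≤ |C 0| * Real.exp (k / 2) :=
      mul_le_mul ((mul_le_mul (le_abs_self _) (hρ1.trans hν1) (Real.sqrt_nonneg _)
        (abs_nonneg _)).trans_eq (mul_one _))
        (Real.exp_le_exp.2 (by nlinarith [hq.1])) (Real.exp_pos _).le (abs_nonneg _)
    have h4 : |glue w q i| ≤ cb := hF.back _ q ⟨hq.1.le, hq.2⟩ i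
    have h5 := le_abs_self cb
    rw [abs_le] at h1 h2 h4 ⊢
    simp only [Pi.add_apply]
    constructor <;> linarith [h1.1, h1.2, h2.1, h2.2, h4.1, h4.2]
  have hY : ∀ p : R4, 0 ≤ p.1 → ∀ i, Pb 5 (Ub k (K + glue w) i) p
      (ε * bY k a (cls i) p.1 p.2.1 + gB k (C 5 * √ρ) i p.1) := fun p hp i => by
    obtain ⟨n, e⟩ := ev p (by linarith [hδ.1])
    exact P354AE.Pb_congr (e.mono fun q hq => by simp only [Ub, hq])
      (sum_pb2 hK (hF.smooth n i) hp le_rfl ((hF.out n p hp).Y i))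
  have η0 : 0 ≤ C 5 * √ρ := by
    have := (bg_pb2 hK (p := 0) le_rfl .O).nonneg
    rw [gB] at this
    exact nonneg_of_mul_nonneg_left this (ex_pos _ _ _)
  have η1 : C 5 * √ρ ≤ |C 5| * ν :=
    mul_le_mul (le_abs_self _) hρ1 (Real.sqrt_nonneg _) (abs_nonneg _)
  obtain ⟨c1, c2, c3⟩ := chart_full (U := K + glue w) (V := fun n => K + w n) (I := Ioi (-δ))
    isOpen_Ioi (fun t ht s hs => (lt_min (by linarith [hδ.1]) ht).trans_le hs.1)
    (by simpa using hδ.1) hu (fun n i => (hK.smooth.1 i).add (hF.smooth n i).contDiffOn) gl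
    (fun n z => init_eq (hF.init n z))
    (fun n q h1 h2 h3 => sol_eq (hF.eqn n q (le_of_lt h1)) h3
      (hK.sol q (lt_of_le_of_lt (by linarith) h1) h2))
    (H ε ⟨hε.1.le, by linarith [hε.2]⟩ _ ⟨η0, by linarith⟩ δ ⟨hδ.1, by linarith⟩ _
      (fun p hp i hi => by
        have := hY p hp i [] (Nat.zero_le _)
        simp only [List.mem_cons, List.not_mem_nil, or_false] at hi
        rcases hi with rfl | rfl | rfl | rfl | rfl | rfl <;>
          exact (congrArg _ (sub_zero _)).symm.trans_le this) bk)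
  refine ⟨c1, c2, c3, hY, fun p hp i hi => ?_, bk⟩
  obtain ⟨n, e⟩ := ev p (by linarith [hδ.1])
  exact P354AE.Pb_congr (e.mono fun q hq => by simp only [Ub, hq])
    (sum_pb2 hK (hF.smooth n i) hp (by norm_num) ((hF.out n p hp).Z i hi))

end Vale.Agent.P354QF
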