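import Vale.Agent.P354QF.Full2
import Vale.Agent.P354Q.Vac
import Vale.Agent.P354Q.Conv
import Vale.Agent.P354J.Uq
import Vale.Agent.P354J.Pull

/-!
The solution on a short strip.
-/

open scoped ContDiff
open Set Filter Topology

namespace Vale.Agent.P354QF

open Vale.Agent.P354C Vale.Agent.P354H Vale.Agent.P354I Vale.Agent.P354A Vale.Agent.P354IG
open Vale.Agent.P354n (R4)
open Vale.Agent.P354P
open Vale.Agent.P354J (PDy Ud sl1 sl2 dslThm uq fu ind dsl)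

/-- Uniqueness in a box below the point p. -/
lemma box {U U' : R4 → Ix → ℝ} {Ω : Set R4} (hO : IsOpen Ω) (hU : SmU U Ω) (hU' : SmU U' Ω)
    {s t0 B κ R : ℝ} (hs : s = 1 ∨ s = -1) {p : R4} (h0 : 0 ≤ s * (p.1 - t0)) (hκ : 0 < κ)
    (hB : 0 ≤ B) (hR : 2 * B * (s * (p.1 - t0)) < R)
    (H : ∀ q : R4, s * (q.1 - t0) ∈ Icc 0 (s * (p.1 - t0)) →
      |q.2.1 - p.2.1| ≤ s * (p.1 - q.1) + κ → |q.2.2.1 - p.2.2.1| ≤ R → |q.2.2.2 - p.2.2.2| ≤ R →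
      q ∈ Ω ∧ (∀ i, |U q i| ≤ B) ∧ (∀ i, res (U q) (dfr U q) i = res (U' q) (dfr U' q) i) ∧
        (q.1 = t0 → U q = U' q)) : U p = U' p := by
  let φ : Fin 6 → R4 → ℝ := ![fun q => lf s 1 0 0 q - (s * p.1 + p.2.1 + κ),
    fun q => lf s (-1) 0 0 q - (s * p.1 - p.2.1 + κ),
    fun q => lf (2 * B * s) 0 1 0 q - (2 * B * s * t0 + p.2.2.1 + R),
    fun q => lf (2 * B * s) 0 (-1) 0 q - (2 * B * s * t0 - p.2.2.1 + R),
    fun q => lf (2 * B * s) 0 0 1 q - (2 * B * s * t0 + p.2.2.2 + R),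
    fun q => lf (2 * B * s) 0 0 (-1) q - (2 * B * s * t0 - p.2.2.2 + R)]
  let D : Set R4 := {q | s * (q.1 - t0) ∈ Icc 0 (s * (p.1 - t0)) ∧
    |q.2.1 - p.2.1| ≤ s * (p.1 - q.1) + κ ∧ |q.2.2.1 - p.2.2.1| ≤ R ∧ |q.2.2.2 - p.2.2.2| ≤ R}
  have hR0 : 0 < R := (mul_nonneg (by linarith) h0).trans_lt hR
  have hD : IsCompact D := by
    refine (isCompact_closedBall p (s * (p.1 - t0) + κ + R)).of_isClosed_subset
      ((isClosed_Icc.preimage (by fun_prop)).and ((isClosed_le (by fun_prop) (by fun_prop)).and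
        ((isClosed_le (by fun_prop) (by fun_prop)).and (isClosed_le (by fun_prop) (by fun_prop)))))
      fun q ⟨a0, a1, a2, a3⟩ => ?_
    simp only [Metric.mem_closedBall, Prod.dist_eq, Real.dist_eq, max_le_iff]
    refine ⟨?_, by linarith [a0.1], by linarith, by linarith⟩
    rcases hs with rfl | rfl <;> exact abs_le.2 ⟨by linarith [a0.1, a0.2], by linarith [a0.1, a0.2]⟩
  have hin : ∀ q : R4, s * (q.1 - t0) ∈ Icc 0 (s * (p.1 - t0)) → (∀ i, φ i q < 0) → q ∈ D :=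
    fun q hq hq' => by
      have a0 := hq' 0
      have a1 := hq' 1
      have a2 := hq' 2
      have a3 := hq' 3
      have a4 := hq' 4
      have a5 := hq' 5
      simp only [φ, Matrix.cons_val, lf_ap] at a0 a1 a2 a3 a4 a5
      have b := mul_nonneg hB hq.1
      exact ⟨hq, abs_le.2 ⟨by linarith, by linarith⟩, abs_le.2 ⟨by linarith, by linarith⟩,
        abs_le.2 ⟨by linarith, by linarith⟩⟩
  have H' := fun q (h : q ∈ D) => H q h.1 h.2.1 h.2.2.1 h.2.2.2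
  refine uni2 (φ := φ) hs hO hD (fun q h => (H' q h).1) hU hU' (fun i => ?_) (fun q hq hq' => ?_)
    (fun q hq hq' => (H' q (hin q (by simpa [hq] using h0) hq')).2.2.2 hq) p ⟨h0, le_rfl⟩ fun i => ?_
  · fin_cases i <;> exact (ContinuousLinearMap.contDiff _).sub contDiff_const
  · have m := hin q hq hq'
    refine ⟨m, (H' q m).2.2.1, fun i => ?_⟩
    fin_cases i
    · exact causal_x hs (Or.inl rfl) U _ q
    · exact causal_x hs (Or.inr rfl) U _ q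
    all_goals exact causal_y hs (by simp) _ (H' q m).2.1
  · fin_cases i <;> simp only [φ, lf_ap] <;> simp <;> linarith

lemma ex_sign (t : ℝ) : ∃ s : ℝ, (s = 1 ∨ s = -1) ∧ s * t = |t| ∧
    ∀ t', s * t' ∈ Icc 0 |t| → |t'| ≤ |t| := by
  rcases le_total 0 t with c | c
  · exact ⟨1, .inl rfl, by rw [one_mul, abs_of_nonneg c], fun t' h =>
      abs_le.2 ⟨by linarith [h.1, abs_nonneg t], by linarith [h.2]⟩⟩
  · exact ⟨-1, .inr rfl, by rw [neg_one_mul, abs_of_nonpos c], fun t' h =>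
      abs_le.2 ⟨by linarith [h.2], by linarith [h.1, abs_nonneg t]⟩⟩

lemma trav_bd {U : R4 → Ix → ℝ} {s T B : ℝ} (hB : 0 ≤ B)
    (h : ∀ p : R4, s * p.1 ∈ Icc 0 T → ∀ i, |U p i| ≤ B) : Trav U s T (B * T) :=
  ⟨fun _ => 0, fun _ => 0, fun t => B * t, fun _ => B, continuous_const, continuous_const,
    fun y => hasDerivAt_const y 0, fun y => hasDerivAt_const_mul _, fun p hp =>
      ⟨⟨by nlinarith [hp.1], by nlinarith [hp.2]⟩, le_rfl,
        fun i _ => (zero_add B).symm ▸ h p hp i, fun i _ => h p hp i⟩⟩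

/-- The two solutions agree on the initial slice. -/
lemma slice2 {d : Dat} (hd : PDy d) {A : Set R4} (o : IsOpen A) (hm : MapsTo P354P.flip A A)
    (h0 : ∀ p ∈ A, 0 < rr p) {U : Bool → R4 → Ix → ℝ} (hs : ∀ σ, SmU (U σ) A)
    (hi : ∀ σ z, (0, z) ∈ A → U σ (0, z) = Ud d σ z)
    (hf : ∀ σ, ∀ p ∈ A, U σ p .O ≠ 0 ∧ detP (U σ p) ≠ 0 ∧ Full (U σ p) (dfr (U σ) p))
    {σ : Bool} {z : X3} (hz : (0, z) ∈ A) : U σ (0, z) = L2 (Uf (U (!σ))) (0, z) := by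
  obtain ⟨P, s, F⟩ := flipped P354Q.vac P354Q.conv o o (hs (!σ)) (fun p hp => (h0 p hp).ne') hm
    (hf (!σ))
  have nz : ∀ p ∈ A, L2 (Uf (U (!σ))) p .O ≠ 0 ∧ detP (L2 (Uf (U (!σ))) p) ≠ 0 := fun p hp =>
    ⟨(hf _ _ (hm hp)).1, (detP_Ft (h0 p hp).ne' _).trans_ne
      (mul_ne_zero (pow_ne_zero 2 (h0 p hp).ne') (hf _ _ (hm hp)).2.1)⟩
  have c := (vac_of_full P354Q.vac o s fun p hp => ⟨(nz p hp).1, (nz p hp).2, F p hp⟩).1
  have c' := (vac_of_full P354Q.vac o (hs (!σ)) (hf (!σ))).1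
  have ds : ∀ {W : R4 → Ix → ℝ}, SmU W A → ∀ y, (0, y) ∈ A → Full (W (0, y)) (dfr W (0, y)) →
      Constr (sl W 0 y) (dsl (sl W 0) y) := fun k y hy k' =>
    (dslThm _ 0 y fun i => ((k i).contDiffAt (o.mem_nhds hy)).differentiableAt (by simp)).1
      (Full.constr k')
  refine uq (sl (U σ) 0) (sl (L2 (Uf (U (!σ)))) 0) {y | (0, y) ∈ A}
    (o.preimage (by fun_prop)) (fun y hy => ?_) z hz
  have hy' : (0, fz y) ∈ A := hm hy
  have r := h0 _ hy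
  obtain ⟨a1, a2, a3, a4, a5, -⟩ := (sl1 _ _ (sl2 d σ hd).1).2 y
  obtain ⟨b1, b2, b3, b4, b5, -⟩ := (sl1 _ _ (sl2 d (!σ) hd).1).2 (fz y)
  have k := Kf_flip ind P hy r.ne' (c _ hy) (c' _ hy') rfl (nz _ hy).symm
    ⟨(hf _ _ hy').2.1, (hf _ _ hy').1⟩
  rw [hi _ _ hy'] at k
  have q := ind_fz r.ne' b5
  have u : sl (U σ) 0 y = Ud d σ y := hi σ y hy
  have v : Uf (U (!σ)) (0, y) = Ft (0, y) (Ud d (!σ) (fz y)) := congrArg _ (hi _ _ hy')
  obtain ⟨t1, t2, t3⟩ := Ft_pos r b2 b3 b4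
  rw [← Ud, ← v] at t1 t2 t3
  refine ⟨(hf σ _ hy).2.1, (hf σ _ hy).1, ds (hs σ) y hy (hf σ _ hy).2.2, ds s y hy (F _ hy), ?_,
    fun a b => ?_⟩
  · rw [u]
    exact fu _ _ a1 a2 a3 a4 ((congrFun v .O).symm ▸ b1 : 0 < Uf (U (!σ)) (0, y) .O) t1 t2 t3
      fun a b => (a5 a b).1.trans ((k _ _).1.trans (q a b).1).symm
  · rw [u]
    exact (a5 a b).2.trans ((k _ _).2.trans (q a b).2).symm

/-- The solutions in the two charts fit together. -/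
lemma compat2 {I : Set ℝ} (hI : IsOpen I) {d : Dat} (hd : PDy d) {U : Bool → R4 → Ix → ℝ}
    (hs : ∀ σ, SmU (U σ) {p | p.1 ∈ I}) (hi : ∀ σ z, r2 z ≤ 9 → U σ (0, z) = Ud d σ z)
    (hf : ∀ σ (p : R4), p.1 ∈ I → r2 p.2 < 25 / 4 →
      Full (U σ p) (dfr (U σ) p) ∧ 0 < U σ p .O ∧ detP (U σ p) ≠ 0) {σ : Bool} {q : R4}
    {s T : ℝ} (e1 : s = 1 ∨ s = -1) (e2 : s * q.1 ∈ Icc 0 T) (e3 : ∀ t, s * t ∈ Icc 0 T → t ∈ I)
    (e4 : Trav (U σ) s T (1 / 1000)) (r1 : rr q < 4) (r2 : 1 / 4 < rr q) (a b : R4) :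
    met (U σ) q a b = met (U (!σ)) (P354P.flip q) (fderiv ℝ P354P.flip q a)
      (fderiv ℝ P354P.flip q b) := by
  let A : Set R4 := {p | p.1 ∈ I ∧ 4 / 25 < rr p ∧ rr p < 25 / 4}
  have o : IsOpen A := (hI.preimage continuous_fst).inter
    ((isOpen_lt continuous_const rr_smooth.continuous).inter
      (isOpen_lt rr_smooth.continuous continuous_const))
  have h0 : ∀ p ∈ A, 0 < rr p := fun p h => lt_trans (by norm_num) h.2.1
  have hm : MapsTo P354P.flip A A := fun p h =>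
    ⟨h.1, by rw [rr_flip, lt_inv_comm₀ (by norm_num) (h0 p h)]; linarith [h.2.2],
      by rw [rr_flip, inv_lt_comm₀ (h0 p h) (by norm_num)]; linarith [h.2.1]⟩
  have hs' : ∀ σ, SmU (U σ) A := fun σ i => (hs σ i).mono fun _ k => k.1
  have hf' : ∀ σ, ∀ p ∈ A, U σ p .O ≠ 0 ∧ detP (U σ p) ≠ 0 ∧ Full (U σ p) (dfr (U σ) p) :=
    fun σ p hp => let k := hf σ p hp.1 hp.2.2; ⟨k.2.1.ne', k.2.2, k.1⟩
  obtain ⟨P, s, F⟩ := flipped P354Q.vac P354Q.conv o o (hs' (!σ)) (fun p hp => (h0 p hp).ne') hm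
    (hf' (!σ))
  obtain ⟨φ, D, d1, d2, d3, d4, d5⟩ := lens (a := 1 / 5) (b := 6) e4 e1 (by norm_num) e2
    (by linarith) (by linarith)
  have sub : D ⊆ A := fun p hp =>
    ⟨e3 _ (d2 p hp).1, by linarith [(d2 p hp).2.1], by linarith [(d2 p hp).2.2]⟩
  have key : U σ q = L2 (Uf (U (!σ))) q := by
    refine P354CU.uni _ _ _ φ A D _ 0 T e1 o d1 sub (hs' σ) s d3 (fun p hp k => ?_)
      (fun p hp k => ?_) q (by rwa [sub_zero]) d5
    · obtain ⟨m, c⟩ := d4 p (by rwa [sub_zero] at hp) k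
      exact ⟨m, Full.solves (hf' σ p (sub m)).2.2, Full.solves (F p (sub m)), c⟩
    · obtain ⟨t, z⟩ := p
      obtain rfl : t = 0 := hp
      exact slice2 hd o hm h0 hs' (fun σ z hz => hi σ z (hz.2.2.le.trans (by norm_num))) hf'
        (sub (d4 _ ⟨by simp, by simpa using e2.1.trans e2.2⟩ k).1)
  rw [← P.eq q ⟨e3 _ e2, by linarith, by linarith⟩, met, met, key]

/-- The members of a short time family agree on diamonds. -/
lemma agree0 {δ δ' cb : ℝ} {K f : R4 → Ix → ℝ} {w0 : X3 → Ix → ℝ} {w : ℕ → R4 → Ix → ℝ}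
    (hδ : δ ≤ δ') (hK : SmU K univ) (hb : ∀ n (p : R4), |p.1| ≤ δ → ∀ i, |(K + w n) p i| ≤ cb)
    {c : ℝ} (h : Fam0 δ' c K f w0 w) {n m : ℕ} {p : R4} (hp : |p.1| ≤ δ)
    (hn : |p.1| + |p.2.1| < n) (hm : |p.1| + |p.2.1| < m) : w n p = w m p := by
  obtain ⟨s, hs, e, H⟩ := ex_sign p.1
  have sV : ∀ n, SmU (K + w n) univ := fun n i => (hK i).add (h.smooth n i).1.contDiffOn
  refine add_left_cancel (a := K p) (box (U := K + w n) (U' := K + w m) isOpen_univ (sV n) (sV m)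
    (t0 := 0) (κ := min (n : ℝ) m - (|p.1| + |p.2.1|)) (R := 2 * cb * |p.1| + 1) hs
    (by rw [sub_zero, e]; exact abs_nonneg _) (sub_pos.2 (lt_min hn hm))
    ((abs_nonneg _).trans (hb n p hp .O)) (by rw [sub_zero, e]; linarith) fun q h1 h2 _ _ => ?_)
  simp only [sub_zero, e, mul_sub] at h1 h2
  have k1 := (H _ h1).trans hp
  have k2 : |q.2.1| ≤ min (n : ℝ) m := by linarith [abs_sub_abs_le_abs_sub q.2.1 p.2.1, h1.1]
  have k3 := le_min_iff.1 k2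
  have k4 : q.1 ∈ Icc (-δ') δ' := abs_le.1 (k1.trans hδ)
  refine ⟨trivial, hb n q k1, fun i => ?_, fun k => ?_⟩
  · rw [h.eqn n q k4 i, h.eqn m q k4 i, cut, cut, cx_one k3.1, cx_one k3.2]
  · obtain ⟨t, z⟩ := q
    obtain rfl : t = 0 := k
    simp only [Pi.add_apply, h.init, cx_one k3.1, cx_one k3.2]

theorem strip : STRIP := by
  intro cb
  have c0 := abs_nonneg cb
  refine ⟨1 / (2000 * (1 + |cb|)), by positivity, fun δ hδ δ' d K f w hδ' hd H => ?_⟩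
  have hb : ∀ σ n (p : R4), |p.1| ≤ δ → ∀ i, |(K σ + w σ n) p i| ≤ 2 * |cb| := fun σ n p hp i => by
    have h1 := (H σ).2.1 p hp i
    have h2 : |w σ n p i| ≤ cb := (H σ).2.2.2.2.bd n p.1 (abs_le.1 (hp.trans hδ')) i [] (by simp) p.2
    exact (abs_add_le _ _).trans (by linarith [le_abs_self cb])
  have gl : ∀ σ (n : ℕ) (p : R4), |p.1| < δ → |p.1| + |p.2.1| < n → glue (w σ) p = w σ n p :=
    fun σ n p h1 h2 => agree0 hδ' (H σ).1 (hb σ) (H σ).2.2.2.2 h1.le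
      (by push_cast; linarith [Nat.le_ceil (|p.1| + |p.2.1|)]) h2
  have tr : ∀ σ, ∀ t ∈ Ioo (-δ) δ, ∃ s T, (s = 1 ∨ s = -1) ∧ s * t ∈ Icc 0 T ∧
      (∀ t', s * t' ∈ Icc 0 T → t' ∈ Ioo (-δ) δ) ∧ Trav (K σ + glue (w σ)) s T (1 / 1000) :=
    fun σ t ht => by
      obtain ⟨s, hs, e, k⟩ := ex_sign t
      have h1 := abs_lt.2 ht
      refine ⟨s, |t|, hs, ⟨e ▸ abs_nonneg t, e.le⟩, fun t' h => abs_lt.1 ((k t' h).trans_lt h1),
        (trav_bd (B := 2 * |cb|) (by linarith) fun p hp =>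
          hb σ _ p ((k _ hp).trans h1.le)).mono ?_⟩
      have h2 := (le_div_iff₀ (by positivity)).1 hδ.2
      nlinarith [mul_le_mul_of_nonneg_left h1.le c0, hδ.1]
  have ch := fun σ => chart_full (U := K σ + glue (w σ)) (V := fun n => K σ + w σ n)
    (I := Ioo (-δ) δ) isOpen_Ioo
    (fun t ht => ordConnected_Ioo.uIcc_subset ⟨by linarith [hδ.1], hδ.1⟩ ht) ⟨by linarith [hδ.1], hδ.1⟩
    (H σ).2.2.2.1 (fun n i => ((H σ).1 i).add ((H σ).2.2.2.2.smooth n i).1.contDiffOn)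
    (fun n p h1 h2 => by simp only [Pi.add_apply, gl σ n p (abs_lt.2 h1) h2])
    (fun n z => init_eq ((H σ).2.2.2.2.init n z))
    (fun n q h1 h2 h3 => sol_eq ((H σ).2.2.2.2.eqn n q (abs_le.1 ((abs_lt.2 h1).le.trans hδ'))) h3
      ((H σ).2.2.1 q (abs_lt.2 h1) h2))
    fun t ht => let ⟨s, T, e1, e2, e3, e4⟩ := tr σ t ht; ⟨s, T, e1, e2, e3, e4.mono (by norm_num)⟩
  refine ⟨⟨fun σ i => ((ch σ).1 i).mono fun _ k => k.1, fun σ p h1 h2 => ?_,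
    fun σ p h1 h2 h3 => ?_⟩, fun σ z hz => ?_, gl⟩
  · have := (ch σ).2.2 p h1 (h2.trans (by norm_num : (4 : ℝ) < 25 / 4))
    exact ⟨this.2.1, this.2.2, this.1⟩
  · obtain ⟨s, T, e1, e2, e3, e4⟩ := tr σ p.1 h1
    exact compat2 (U := fun σ => K σ + glue (w σ)) isOpen_Ioo hd (fun σ => (ch σ).1)
      (fun σ => (ch σ).2.1) (fun σ => (ch σ).2.2) e1 e2 e3 e4 h2 h3
  · show P354J.Ind ((K σ + glue (w σ)) (0, z)) _ _
    rw [(ch σ).2.1 z (by linarith)]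
    exact ((sl1 _ _ (sl2 d σ hd).1).2 z).2.2.2.2.1

end Vale.Agent.P354QF
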