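import Vale.Agent.P354QF.Strip

/-!
Rotation of the angular frame.
-/

open scoped ContDiff
open Set Filter Topology

noncomputable section

namespace Vale.Agent.P354QF

open Vale.Agent.P354C Vale.Agent.P354C.Ix Vale.Agent.P354H
open Vale.Agent.P354n (R4 IsConn)
open Vale.Agent.P354P
open Vale.Agent.P354J (hf Kf nU ind uq dslThm dsl)

/-- The lapse, the shift and the rotated angular frame. -/
def Rt (m : Fin 4 → ℝ) (u : Ix → ℝ) : Ix → ℝ
  | .O => u O
  | .b1 => u b1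
  | .b2 => u b2
  | .P11 => m 0 * u P11 + m 1 * u P21
  | .P12 => m 0 * u P12 + m 1 * u P22
  | .P21 => m 2 * u P11 + m 3 * u P21
  | .P22 => m 2 * u P12 + m 3 * u P22
  | _ => 0

/-- An orthogonal matrix. -/
def Orth (m : Fin 4 → ℝ) : Prop :=
  m 0 ^ 2 + m 2 ^ 2 = 1 ∧ m 1 ^ 2 + m 3 ^ 2 = 1 ∧ m 0 * m 1 + m 2 * m 3 = 0

/-- The matrix which takes the angular frame of u' to the angular frame of u. -/
def mm (u u' : Ix → ℝ) : Fin 4 → ℝ :=
  ![(u' P22 * u P11 - u' P21 * u P12) / detP u', (u' P11 * u P12 - u' P12 * u P11) / detP u',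
    (u' P22 * u P21 - u' P21 * u P22) / detP u', (u' P11 * u P22 - u' P12 * u P21) / detP u']

/-- A smooth solution of all structure equations on Ω. -/
def Gd (W : R4 → Ix → ℝ) (Ω : Set R4) : Prop :=
  SmU W Ω ∧ ∀ p ∈ Ω, 0 < W p O ∧ detP (W p) ≠ 0 ∧ Full (W p) (dfr W p)

/-- The same first and second fundamental form of the slice. -/
def DEq (u u' : Ix → ℝ) : Prop := ∀ a b : X3, hf u a b = hf u' a b ∧ Kf u a b = Kf u' a b

variable {m : Fin 4 → ℝ} {u u' : Ix → ℝ} {V W : R4 → Ix → ℝ} {Ω : Set R4} {p : R4}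

lemma Orth.det (h : Orth m) : (m 0 * m 3 - m 1 * m 2) ^ 2 = 1 := by
  obtain ⟨h1, h2, h3⟩ := h
  linear_combination (m 1 ^ 2 + m 3 ^ 2) * h1 + h2 - (m 0 * m 1 + m 2 * m 3) * h3

lemma detP_Rt (m : Fin 4 → ℝ) (u : Ix → ℝ) :
    detP (Rt m u) = (m 0 * m 3 - m 1 * m 2) * detP u := by
  simp only [detP, Rt]; ring

lemma Orth.ne (h : Orth m) (hu : detP u ≠ 0) : detP (Rt m u) ≠ 0 := by
  rw [detP_Rt]
  exact mul_ne_zero (fun k => by simpa [k] using h.det) hu

lemma eta_Rt (h : Orth m) (hu : detP u ≠ 0) (a b : R4) :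
    eta (th (Rt m u) a) (th (Rt m u) b) = eta (th u a) (th u b) := by
  have hd := h.det
  have h0 : m 0 * m 3 - m 1 * m 2 ≠ 0 := fun k => by simp [k] at hd
  obtain ⟨h1, h2, h3⟩ := h
  have e : ∀ a, th (Rt m u) a = ![th u a 0, th u a 1,
      (m 3 * th u a 2 - m 2 * th u a 3) / (m 0 * m 3 - m 1 * m 2),
      (m 0 * th u a 3 - m 1 * th u a 2) / (m 0 * m 3 - m 1 * m 2)] := fun a => by
    simp only [th, detP_Rt, Rt, Matrix.cons_val_zero, Matrix.cons_val_one, Matrix.cons_val]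
    congr 3
    · field_simp
      ring
    · congr 1
      field_simp
      ring
  simp only [e, eta, Matrix.cons_val_zero, Matrix.cons_val_one, Matrix.cons_val, div_mul_div_comm,
    ← sq, hd, div_one]
  linear_combination (th u a 2 * th u b 2) * h2 + (th u a 3 * th u b 3) * h1 -
    (th u a 2 * th u b 3 + th u a 3 * th u b 2) * h3

/-- Two frames with the same metric of the slice differ by a rotation. -/
lemma alg (h1 : 0 < u O) (h2 : 0 < u' O) (h3 : detP u ≠ 0) (h4 : detP u' ≠ 0)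
    (h : ∀ a b, hf u a b = hf u' a b) :
    Orth (mm u u') ∧ ∀ i ∈ [O, b1, b2, P11, P12, P21, P22], u i = Rt (mm u u') u' i := by
  have k : ∀ a : X3, a.1 = 0 → hf u (2, u b1, u b2) a = 0 := fun a ha => by simp [hf, eta, th, ha]
  have a1 := (h _ _).symm.trans (k (0, u' P11, u' P12) rfl)
  have a2 := (h _ _).symm.trans (k (0, u' P21, u' P22) rfl)
  have a3 := h (2, u b1, u b2) (2, u b1, u b2)
  have a4 := h (0, u P11, u P12) (0, u P11, u P12)
  have a5 := h (0, u P11, u P12) (0, u P21, u P22)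
  have a6 := h (0, u P21, u P22) (0, u P21, u P22)
  have t1 : ∀ v : Ix → ℝ, detP v ≠ 0 → (v P22 * v P11 - v P21 * v P12) / detP v = 1 ∧
      (v P11 * v P22 - v P12 * v P21) / detP v = 1 := fun v hv => by
    constructor <;> rw [div_eq_one_iff_eq hv, detP]
    ring
  simp only [hf, eta, th, Matrix.cons_val_zero, Matrix.cons_val_one, Matrix.cons_val, add_zero,
    zero_add, zero_div, mul_zero, sub_zero, neg_zero, sub_self, (t1 u h3).1, (t1 u h3).2,
    (t1 u' h4).1, (t1 u' h4).2, mul_comm (u P12) (u P11), mul_comm (u P21) (u P22),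
    mul_comm (u' P12) (u' P11), mul_comm (u' P21) (u' P22), mul_one,
    div_self (two_ne_zero' ℝ)] at a1 a2 a3 a4 a5 a6
  have o := pow_ne_zero 2 h2.ne'
  have c1 := (mul_eq_zero.1 a1).resolve_left o
  have c2 := (mul_eq_zero.1 a2).resolve_left o
  rw [c1, c2] at a3
  have c3 := (div_eq_zero_iff.1 c1).resolve_right h4
  have c4 := (div_eq_zero_iff.1 c2).resolve_right h4
  have eO : u O = u' O := (pow_left_inj₀ h1.le h2.le two_ne_zero).1 (by linarith)
  rw [eO] at a4 a6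
  have r1 : mm u u' 0 * mm u u' 0 + mm u u' 1 * mm u u' 1 = 1 :=
    mul_left_cancel₀ o (a4.symm.trans (mul_one _).symm)
  have r2 : mm u u' 0 * mm u u' 2 + mm u u' 1 * mm u u' 3 = 0 :=
    (mul_eq_zero.1 a5.symm).resolve_left o
  have r3 : mm u u' 2 * mm u u' 2 + mm u u' 3 * mm u u' 3 = 1 :=
    mul_left_cancel₀ o (a6.symm.trans (mul_one _).symm)
  refine ⟨?_, fun i hi => ?_⟩
  · unfold Orth
    generalize mm u u' = m at *
    obtain ⟨D, hD⟩ : ∃ D, D = m 0 * m 3 - m 1 * m 2 := ⟨_, rfl⟩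
    have d : D ^ 2 = 1 := by
      rw [hD]
      linear_combination (m 2 * m 2 + m 3 * m 3) * r1 + r3 - (m 0 * m 2 + m 1 * m 3) * r2
    have e0 : m 0 = m 3 * D := by rw [hD]; linear_combination m 2 * r2 - m 0 * r3
    have e1 : m 1 = -(m 2 * D) := by rw [hD]; linear_combination m 3 * r2 - m 1 * r3
    rw [e0, e1]
    exact ⟨by linear_combination m 3 ^ 2 * d + r3, by linear_combination m 2 ^ 2 * d + r3,
      by linear_combination -(m 2 * m 3) * d⟩
  simp only [List.mem_cons, List.not_mem_nil, or_false] at hi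
  rcases hi with rfl | rfl | rfl | rfl | rfl | rfl | rfl
  · exact eO
  · refine mul_left_cancel₀ h4 ?_
    simp only [detP, Rt]
    linear_combination u' P11 * c3 + u' P21 * c4
  · refine mul_left_cancel₀ h4 ?_
    simp only [detP, Rt]
    linear_combination u' P12 * c3 + u' P22 * c4
  all_goals
    simp only [Rt, mm, Matrix.cons_val_zero, Matrix.cons_val_one, Matrix.cons_val]
    field_simp
    simp only [detP]
    ring

lemma deq_of_met (hO : IsOpen Ω) (hV : Gd V Ω) (hW : Gd W Ω) (hp : p ∈ Ω)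
    (e : ∀ᶠ q in 𝓝 p, met V q = met W q) : DEq (V p) (W p) := by
  obtain ⟨v1, v2, -⟩ := hV.2 p hp
  obtain ⟨w1, w2, -⟩ := hW.2 p hp
  have i := (ind V p v2 v1.ne').2
  have i' := (ind W p w2 w1.ne').2
  have c := (vac_of_full P354Q.vac hO hV.1 fun q hq => ⟨(hV.2 q hq).1.ne', (hV.2 q hq).2⟩).1 p hp
  have c' := (vac_of_full P354Q.vac hO hW.1 fun q hq => ⟨(hW.2 q hq).1.ne', (hW.2 q hq).2⟩).1 p hp
  have k : ∀ a b, hf (V p) a b = hf (W p) a b := fun a b => by
    rw [← (i a b).2.2.1, ← (i' a b).2.2.1, e.self_of_nhds]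
  have f := (alg v1 w1 v2 w2 k).2
  have n : nU (V p) = nU (W p) := by
    simp only [nU, fr, E, Matrix.cons_val_zero, Matrix.cons_val_one, f O (by simp), f b1 (by simp),
      f b2 (by simp), Rt]
  have d : ∀ a b c, P354n.deriv (fun z => met V z a b) p c = P354n.deriv (fun z => met W z a b) p c :=
    fun a b c => EventuallyEq.lineDeriv_eq (e.mono fun q hq => by simp only [hq])
  have s : ∀ (U : R4 → Ix → ℝ) a b, met U p a b = met U p b a := fun U a b => by
    simp only [met, eta]; ring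
  refine fun a b => ⟨k a b, ?_⟩
  rw [← (i a b).2.2.2, ← (i' a b).2.2.2, s V, s W, ← conn_chr c, ← conn_chr c', n]
  simp only [P354R.chr, d]

/-- **ROT**: the solution in the rotated frame. -/
theorem rot {M : R4 → Fin 4 → ℝ} (hO : IsOpen Ω) (hW : Gd W Ω) (hM : SmU M Ω)
    (ho : ∀ p ∈ Ω, Orth (M p)) (hn : ∀ p ∈ Ω, ∀ j, fderiv ℝ (fun z => M z j) p (1, -1, 0, 0) = 0) :
    Gd (L2 fun p => Rt (M p) (W p)) Ω ∧ ∀ p ∈ Ω, met (L2 fun p => Rt (M p) (W p)) p = met W p := by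
  have s : SmU (fun p => Rt (M p) (W p)) Ω := fun i => by
    have k1 : ∀ i, ContDiffOn ℝ ∞ (fun z => W z i) Ω := hW.1
    have k2 : ∀ i, ContDiffOn ℝ ∞ (fun z => M z i) Ω := hM
    cases i <;> simp only [Rt] <;> fun_prop
  have e : ∀ p ∈ Ω, met (fun p => Rt (M p) (W p)) p = met W p := fun p hp => by
    funext a b
    simp only [met, eta_Rt (ho p hp) (hW.2 p hp).2.1, Rt]
  have hb : ∀ p ∈ Ω, br (Rt (M p) (W p)) (dfr (fun p => Rt (M p) (W p)) p) 1 2 3 =
      br (Rt (M p) (W p)) (dfr (fun p => Rt (M p) (W p)) p) 1 3 2 := fun p hp => by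
    have dW := fun i =>
      (((hW.1 i).contDiffAt (hO.mem_nhds hp)).differentiableAt (by simp)).hasFDerivAt
    have dM := fun i =>
      (((hM i).contDiffAt (hO.mem_nhds hp)).differentiableAt (by simp)).hasFDerivAt
    have d : ∀ j j' i i', fderiv ℝ (fun z => M z j * W z i + M z j' * W z i') p (1, -1, 0, 0) =
        M p j * dfr W p 1 i + M p j' * dfr W p 1 i' := fun j j' i i' => by
      rw [(((dM j).fun_mul (dW i)).fun_add ((dM j').fun_mul (dW i'))).fderiv]
      simp only [add_apply, smul_apply, hn p hp, mul_zero, add_zero, smul_eq_mul]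
      rfl
    have d1 : dfr (fun p => Rt (M p) (W p)) p 1 P11 = _ := d 0 1 P11 P21
    have d2 : dfr (fun p => Rt (M p) (W p)) p 1 P12 = _ := d 0 1 P12 P22
    have d3 : dfr (fun p => Rt (M p) (W p)) p 1 P21 = _ := d 2 3 P11 P21
    have d4 : dfr (fun p => Rt (M p) (W p)) p 1 P22 = _ := d 2 3 P12 P22
    have hF := (hW.2 p hp).2.2
    have e0 := full_sym hF
    have e1 := hF.eqN P11
    have e2 := hF.eqN P12
    have e3 := hF.eqN P21
    have e4 := hF.eqN P22
    simp [resN, cN, angS, angN, linS, linN, quadS, quadN] at e1 e2 e3 e4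
    obtain ⟨o1, o2, o3⟩ := ho p hp
    simp only [br, th, vec, dEof, Matrix.cons_val_zero, Matrix.cons_val_one, Matrix.cons_val,
      d1, d2, d3, d4, Rt, sub_zero, add_zero, zero_div, mul_zero]
    congr 1
    rw [eq_neg_of_add_eq_zero_left e1, eq_neg_of_add_eq_zero_left e2, eq_neg_of_add_eq_zero_left e3,
      eq_neg_of_add_eq_zero_left e4, e0]
    linear_combination 2 * (W p P11 * W p P22 - W p P12 * W p P21) *
      (W p Y21 * (o2 - o1) + (W p Y11 - W p Y22) * o3)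
  obtain ⟨-, k1, k3, -, k4⟩ := P354Q.conv (fun p => Rt (M p) (W p)) Ω hO (fun i _ => s i)
    fun p hp => ⟨(ho p hp).ne (hW.2 p hp).2.1, (hW.2 p hp).1.ne', hb p hp⟩
  have hf := fun q hq => (⟨(hW.2 q hq).1.ne', (hW.2 q hq).2⟩ : W q O ≠ 0 ∧ _)
  obtain ⟨G, hG⟩ := P354RC.k2.2.1 id (met fun p => Rt (M p) (W p)) Ω _ _
    ⟨hO, hO, met_Met hW.1 fun q hq => ⟨(hf q hq).1, (hf q hq).2.1⟩, contDiffOn_id, mapsTo_id _,
      fun q _ => by rw [fderiv_id]; exact Function.injective_id,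
      fun q hq a b => by rw [e q hq, fderiv_id]; rfl⟩ (vac_of_full P354Q.vac hO hW.1 hf).2
  exact ⟨⟨k1, fun p hp => ⟨(hW.2 p hp).1, (ho p hp).ne (hW.2 p hp).2.1, k4 G hG p hp⟩⟩,
    fun p hp => k3 ▸ e p hp⟩

/-- The projection to the slice τ = t along n. -/
def pj (t : ℝ) (q : R4) : R4 := (t, q.2.1 + q.1 - t, q.2.2)

lemma pj_slice (t : ℝ) (z : X3) : pj t (t, z) = (t, z) := by simp [pj]

/-- Two solutions with the same data on the slice τ = t agree there after a rotation. -/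
theorem rot_slice {Ω' : Set R4} {t : ℝ} (hO' : IsOpen Ω') (hO : IsOpen Ω) (hV : Gd V Ω')
    (hW : Gd W Ω) (h : ∀ q ∈ Ω, pj t q ∈ Ω' ∧ pj t q ∈ Ω ∧ DEq (V (pj t q)) (W (pj t q))) :
    ∃ M : R4 → Fin 4 → ℝ, (∀ p ∈ Ω, Orth (M p)) ∧ Gd (L2 fun p => Rt (M p) (W p)) Ω ∧
      (∀ p ∈ Ω, met (L2 fun p => Rt (M p) (W p)) p = met W p) ∧
      ∀ z, (t, z) ∈ Ω → V (t, z) = L2 (fun p => Rt (M p) (W p)) (t, z) := by
  have A := fun q hq => alg (hV.2 _ (h q hq).1).1 (hW.2 _ (h q hq).2.1).1 (hV.2 _ (h q hq).1).2.1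
    (hW.2 _ (h q hq).2.1).2.1 fun a b => ((h q hq).2.2 a b).1
  have sp : ContDiff ℝ ∞ (pj t) := by unfold pj; fun_prop
  have s : SmU (fun q => mm (V (pj t q)) (W (pj t q))) Ω := fun j => by
    have k1 : ∀ i, ContDiffOn ℝ ∞ (fun z => V (pj t z) i) Ω := fun i =>
      (hV.1 i).comp sp.contDiffOn fun q hq => (h q hq).1
    have k2 : ∀ i, ContDiffOn ℝ ∞ (fun z => W (pj t z) i) Ω := fun i =>
      (hW.1 i).comp sp.contDiffOn fun q hq => (h q hq).2.1
    have k3 : ContDiffOn ℝ ∞ (fun z => detP (W (pj t z))) Ω :=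
      ((k2 _).mul (k2 _)).sub ((k2 _).mul (k2 _))
    fin_cases j <;> exact (((k2 _).mul (k1 _)).sub ((k2 _).mul (k1 _))).div k3
      fun q hq => (hW.2 _ (h q hq).2.1).2.1
  obtain ⟨g, e⟩ := rot hO hW s (fun q hq => (A q hq).1) fun p hp j => fd_n
    (((s j).contDiffAt (hO.mem_nhds hp)).differentiableAt (by simp)) (by
      have : ∀ r : ℝ, pj t (p.1 + r, p.2.1 - r, p.2.2) = pj t p := fun r => by
        simp only [pj, Prod.mk.injEq, and_true, true_and]; ring
      simp only [this]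
      exact hasDerivAt_const _ _)
  refine ⟨_, fun q hq => (A q hq).1, g, e, fun z hz => uq (sl V t) (sl (L2 _) t) {y | (t, y) ∈ Ω}
    (hO.preimage (by fun_prop)) (fun y hy => ?_) z hz⟩
  obtain ⟨h1, -, h2⟩ := h _ hy
  have h3 := (A _ hy).2
  rw [pj_slice] at h1 h2
  have ds : ∀ {W : R4 → Ix → ℝ} {D : Set R4}, IsOpen D → Gd W D → (t, y) ∈ D →
      Constr (sl W t y) (dsl (sl W t) y) := fun o k hy =>
    (dslThm _ t y fun i => ((k.1 i).contDiffAt (o.mem_nhds hy)).differentiableAt (by simp)).1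
      (Full.constr (k.2 _ hy).2.2)
  refine ⟨(hV.2 _ h1).2.1, (hV.2 _ h1).1.ne', ds hO' hV h1, ds hO g hy, fun i hi => ?_,
    fun a b => (h2 _ _).2.trans (deq_of_met hO g hW hy
      (Filter.mem_of_superset (hO.mem_nhds hy) e) _ _).2.symm⟩
  have h4 := h3 i hi
  have h5 : W (pj t (t, y)) = W (t, y) := by rw [pj_slice]
  have h6 : V (pj t (t, y)) = V (t, y) := by rw [pj_slice]
  rw [h6] at h4
  conv_rhs at h4 => rw [← h6]; arg 2; rw [h5]
  simp only [List.mem_cons, List.not_mem_nil, or_false] at hi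
  rcases hi with rfl | rfl | rfl | rfl | rfl | rfl | rfl <;> exact h4

end Vale.Agent.P354QF
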