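import Vale.Agent.P354QF.Rot

/-!
Uniqueness of the evolution of data in the double null gauge.
-/

open scoped ContDiff
open Set Filter Topology

namespace Vale.Agent.P354QF

open Vale.Agent.P354C Vale.Agent.P354H Vale.Agent.P354I
open Vale.Agent.P354n (R4)
open Vale.Agent.P354P
open Vale.Agent.P354J (Psi)
open Vale.Agent.P354JK (hf_lin Kf_lin)

lemma Gd.mono {W : R4 → Ix → ℝ} {Ω Ω' : Set R4} (h : Gd W Ω) (k : Ω' ⊆ Ω) : Gd W Ω' :=
  ⟨fun i => (h.1 i).mono k, fun p hp => h.2 p (k hp)⟩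

lemma strip_mono {a b a' b' : ℝ} {U : Bool → R4 → Ix → ℝ} (h : Strip a b U) (h1 : a ≤ a')
    (h2 : b' ≤ b) : Strip a' b' U :=
  ⟨fun σ i => (h.sm σ i).mono fun _ k => ⟨Ioo_subset_Ioo h1 h2 k.1, k.2⟩,
    fun σ p k => h.full σ p (Ioo_subset_Ioo h1 h2 k),
    fun σ p k => h.compat σ p (Ioo_subset_Ioo h1 h2 k)⟩

lemma strip_gd {a b : ℝ} {U : Bool → R4 → Ix → ℝ} (h : Strip a b U) (σ : Bool) :
    Gd (U σ) {p | p.1 ∈ Ioo a b ∧ rr p < 4} := ⟨h.sm σ, fun p hp => h.full σ p hp.1 hp.2⟩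

lemma open_strip {I : Set ℝ} (hI : IsOpen I) : IsOpen {p : R4 | p.1 ∈ I ∧ rr p < 4} :=
  (hI.preimage continuous_fst).inter (isOpen_lt rr_smooth.continuous continuous_const)

/-- One step in one chart. -/
lemma step1 {U W : R4 → Ix → ℝ} {I : Set ℝ} (hI : IsOpen I)
    (hU : Gd U {p | p.1 ∈ I ∧ rr p < 4}) (hW : Gd W {p | p.1 ∈ I ∧ rr p < 4})
    {s t x R h B : ℝ} (hs : s = 1 ∨ s = -1) (hB : 0 ≤ B) (hh : 6 * B * h < 1)
    (hi : ∀ τ, s * (τ - t) ∈ Icc 0 h → τ ∈ I)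
    (hb : ∀ q : R4, s * (q.1 - t) ∈ Icc 0 h → |q.2.1 - x| ≤ R → rr q ≤ 3 → ∀ i, |U q i| ≤ B)
    (he : ∀ z : X3, |z.1 - x| < R → r2 z < 4 → DEq (U (t, z)) (W (t, z))) {p : R4}
    (h1 : s * (p.1 - t) ∈ Icc 0 h) (h2 : |p.2.1 - x| + s * (p.1 - t) < R) (h3 : rr p ≤ 1) :
    met U p = met W p := by
  let Ω : Set R4 := {q | (q.1 ∈ I ∧ rr q < 4) ∧ |q.2.1 + q.1 - t - x| < R}
  have o : IsOpen Ω := (open_strip hI).inter
    (isOpen_lt (f := fun q : R4 => |q.2.1 + q.1 - t - x|) (by fun_prop) continuous_const)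
  have t0 : t ∈ I := hi t ⟨by simp, by simpa using h1.1.trans h1.2⟩
  have gU : Gd U Ω := hU.mono fun _ k => k.1
  obtain ⟨M, -, g, e, k⟩ := rot_slice (t := t) o o gU (hW.mono fun _ k => k.1) fun q hq =>
    have m : pj t q ∈ Ω := ⟨⟨t0, hq.1.2⟩, by simpa only [pj, add_sub_cancel_right] using hq.2⟩
    ⟨m, m, he _ hq.2 hq.1.2⟩
  have ab : ∀ y : ℝ, 0 ≤ s * y → |y| = s * y := fun y hy => by
    rw [← abs_of_nonneg hy]
    rcases hs with rfl | rfl <;> simp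
  have m : ∀ q : R4, s * (q.1 - t) ∈ Icc 0 (s * (p.1 - t)) →
      |q.2.1 - p.2.1| ≤ s * (p.1 - q.1) + (R - (|p.2.1 - x| + s * (p.1 - t))) / 2 →
      |q.2.2.1 - p.2.2.1| ≤ 1 / 3 → |q.2.2.2 - p.2.2.2| ≤ 1 / 3 →
      q ∈ Ω ∧ |q.2.1 - x| ≤ R ∧ rr q ≤ 3 := fun q a0 a1 a2 a3 => by
    have b1 := abs_sub_le q.2.1 p.2.1 x
    have b2 := abs_add_le (q.2.1 - x) (q.1 - t)
    have b3 : rr q ≤ 3 := by
      have c1 := sq_le_sq' (abs_le.1 a2).1 (abs_le.1 a2).2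
      have c2 := sq_le_sq' (abs_le.1 a3).1 (abs_le.1 a3).2
      simp only [rr, P354n.c1, P354n.c2] at h3 ⊢
      nlinarith [sq_nonneg (q.2.2.1 - 2 * p.2.2.1), sq_nonneg (q.2.2.2 - 2 * p.2.2.2)]
    rw [ab _ a0.1, show q.2.1 - x + (q.1 - t) = q.2.1 + q.1 - t - x by ring] at b2
    exact ⟨⟨⟨hi _ ⟨a0.1, a0.2.trans h1.2⟩, by linarith⟩, by linarith⟩, by linarith [a0.1], b3⟩
  have key := box o gU.1 g.1 hs h1.1 (half_pos (sub_pos.2 h2)) hB (R := 1 / 3)
    (by nlinarith [mul_le_mul_of_nonneg_left h1.2 hB]) fun q a0 a1 a2 a3 => by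
      obtain ⟨b1, b2, b3⟩ := m q a0 a1 a2 a3
      refine ⟨b1, hb q ⟨a0.1, a0.2.trans h1.2⟩ b2 b3, fun i => ?_, fun c => ?_⟩
      · rw [Full.solves (gU.2 q b1).2.2, Full.solves (g.2 q b1).2.2]
      · obtain ⟨τ, z⟩ := q
        obtain rfl : τ = t := c
        exact k z b1
  rw [← e p (m p ⟨h1.1, le_rfl⟩ (by simp only [sub_self, abs_zero, mul_zero]; linarith)
    (by simp) (by simp)).1]
  funext v w
  simp only [met, key]

/-- One step in both charts. -/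
lemma step2 {U W : Bool → R4 → Ix → ℝ} {a b : ℝ} (hU : Strip a b U) (hW : Strip a b W)
    {s t x R h B : ℝ} (hs : s = 1 ∨ s = -1) (hB : 0 ≤ B) (hh : 6 * B * h < 1)
    (hi : ∀ τ, s * (τ - t) ∈ Icc 0 h → τ ∈ Ioo a b)
    (hb : ∀ σ (q : R4), s * (q.1 - t) ∈ Icc 0 h → |q.2.1 - x| ≤ R → rr q ≤ 3 → ∀ i, |U σ q i| ≤ B)
    (he : ∀ σ (z : X3), |z.1 - x| < R → r2 z < 4 → DEq (U σ (t, z)) (W σ (t, z))) (σ : Bool)
    {p : R4} (h1 : s * (p.1 - t) ∈ Ioo 0 h) (h2 : |p.2.1 - x| + s * (p.1 - t) < R)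
    (h3 : rr p < 4) : DEq (U σ p) (W σ p) := by
  have o : IsOpen {q : R4 | s * (q.1 - t) ∈ Ioo 0 h ∧ |q.2.1 - x| + s * (q.1 - t) < R ∧
      rr q < 4} := (isOpen_Ioo.preimage (by fun_prop)).inter
    ((isOpen_lt (f := fun q : R4 => |q.2.1 - x| + s * (q.1 - t)) (by fun_prop)
      continuous_const).inter (isOpen_lt rr_smooth.continuous continuous_const))
  refine deq_of_met (open_strip isOpen_Ioo) (strip_gd hU σ) (strip_gd hW σ)
    ⟨hi _ (Ioo_subset_Icc_self h1), h3⟩ ?_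
  filter_upwards [o.mem_nhds ⟨h1, h2, h3⟩] with q ⟨k1, k2, k3⟩
  have st := fun σ (q : R4) => step1 (p := q) isOpen_Ioo (strip_gd hU σ) (strip_gd hW σ) hs hB hh hi
    (hb σ) (he σ)
  have k0 := Ioo_subset_Icc_self k1
  rcases le_total (rr q) 1 with c | c
  · exact st σ q k0 k2 c
  · funext v w
    rw [hU.compat σ q (hi _ k0) k3 (by linarith), hW.compat σ q (hi _ k0) k3 (by linarith),
      st (!σ) (P354P.flip q) k0 k2 (by rw [rr_flip]; exact inv_le_one_of_one_le₀ c)]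

/-- Two solutions with the same data at the time 0 have the same data at the time t. -/
theorem deq_strip {U W : Bool → R4 → Ix → ℝ} {a b t : ℝ} (hU : Strip a b U) (hW : Strip a b W)
    (ha : a < min 0 t) (hb : max 0 t < b)
    (he : ∀ σ (z : X3), r2 z < 4 → DEq (U σ (0, z)) (W σ (0, z))) (σ : Bool) (z : X3)
    (hz : r2 z < 4) : DEq (U σ (t, z)) (W σ (t, z)) := by
  obtain ⟨s, hs, e, -⟩ := ex_sign t
  have s2 : s * s = 1 := by rcases hs with rfl | rfl <;> norm_num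
  obtain ⟨η, hη, hI⟩ : ∃ η > 0, ∀ τ, s * τ ∈ Icc 0 (|t| + η) → τ ∈ Ioo a b := by
    have h1 := lt_min_iff.1 ha
    have h2 := max_lt_iff.1 hb
    rw [← e]
    rcases hs with rfl | rfl
    · exact ⟨(b - t) / 2, by linarith, fun τ k => ⟨by linarith [k.1], by linarith [k.2]⟩⟩
    · exact ⟨(t - a) / 2, by linarith, fun τ k => ⟨by linarith [k.2], by linarith [k.1]⟩⟩
  have t0 := abs_nonneg t
  have cD : IsCompact {q : R4 | s * q.1 ∈ Icc 0 (|t| + η) ∧ |q.2.1 - z.1| ≤ 1 + |t| ∧ rr q ≤ 3} := by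
    refine (isCompact_closedBall ((0, z.1, 0, 0) : R4) (|t| + η + 2)).of_isClosed_subset
      ((isClosed_Icc.preimage (by fun_prop)).and ((isClosed_le (by fun_prop) (by fun_prop)).and
        (isClosed_le rr_smooth.continuous continuous_const))) fun q ⟨a0, a1, a2⟩ => ?_
    have r : q.2.2.1 ^ 2 + q.2.2.2 ^ 2 ≤ 3 := a2
    have r1 := abs_le_of_sq_le_sq (a := q.2.2.1) (b := 2) (by nlinarith) (by norm_num)
    have r2 := abs_le_of_sq_le_sq (a := q.2.2.2) (b := 2) (by nlinarith) (by norm_num)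
    simp only [Metric.mem_closedBall, Prod.dist_eq, Real.dist_eq, max_le_iff, sub_zero]
    refine ⟨?_, by linarith, by linarith, by linarith⟩
    rcases hs with rfl | rfl <;> exact abs_le.2 ⟨by linarith [a0.1, a0.2], by linarith [a0.1, a0.2]⟩
  obtain ⟨B, hB⟩ := cD.exists_bound_of_continuousOn (f := fun q σ i => U σ q i)
    (continuousOn_pi.2 fun σ => continuousOn_pi.2 fun i => (hU.sm σ i).continuousOn.mono
      fun q hq => ⟨hI _ hq.1, by linarith [hq.2.2]⟩)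
  have B0 := abs_nonneg B
  obtain ⟨h, h0, h1, h2⟩ : ∃ h > 0, 2 * h ≤ η ∧ 6 * |B| * (2 * h) < 1 := by
    refine ⟨min (η / 2) (1 / (13 * (|B| + 1))), by positivity,
      by linarith [min_le_left (η / 2) (1 / (13 * (|B| + 1)))], ?_⟩
    have := (le_div_iff₀ (by positivity)).1 (min_le_right (η / 2) (1 / (13 * (|B| + 1))))
    have h0 : 0 < min (η / 2) (1 / (13 * (|B| + 1))) := by positivity
    nlinarith [mul_nonneg h0.le B0]
  have H : ∀ n : ℕ, ∀ r ∈ Icc 0 |t|, r ≤ n * h → ∀ σ (y : X3), |y.1 - z.1| < 1 + |t| - r →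
      r2 y < 4 → DEq (U σ (s * r, y)) (W σ (s * r, y)) := fun n => by
    induction n with
    | zero =>
      intro r hr k σ y _ hy
      obtain rfl : r = 0 := le_antisymm (by simpa using k) hr.1
      rw [mul_zero]
      exact he σ y hy
    | succ n ih =>
      intro r hr k σ y k1 hy
      rcases le_or_gt r (n * h) with c | c
      · exact ih r hr c σ y k1 hy
      have n0 : 0 ≤ n * h := by positivity
      have q : ∀ τ, s * (τ - s * (n * h)) = s * τ - n * h := fun τ => by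
        rw [mul_sub, ← mul_assoc, s2, one_mul]
      have q' : s * (s * r) = r := by rw [← mul_assoc, s2, one_mul]
      push_cast at k
      have i : ∀ τ, s * (τ - s * (n * h)) ∈ Icc 0 (2 * h) → s * τ ∈ Icc 0 (|t| + η) :=
        fun τ k => by
          rw [q] at k
          exact ⟨by linarith [k.1], by linarith [k.2, hr.2]⟩
      refine step2 hU hW hs B0 h2 (fun τ k => hI τ (i τ k)) (fun σ p a0 a1 a2 j => ?_)
        (ih (n * h) ⟨n0, c.le.trans hr.2⟩ le_rfl) σ ?_ ?_ hy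
      · exact ((norm_le_pi_norm (U σ p) j).trans ((norm_le_pi_norm (fun σ => U σ p) σ).trans
          (hB p ⟨i _ a0, by linarith, a2⟩))).trans (le_abs_self B)
      · simp only [q, q']
        exact ⟨by linarith, by linarith⟩
      · simp only [q, q']
        linarith
  obtain ⟨n, hn⟩ := exists_nat_ge (|t| / h)
  have := H n |t| ⟨t0, le_rfl⟩ ((div_le_iff₀ h0).1 hn) σ z (by simp) hz
  rwa [← e, ← mul_assoc, s2, one_mul] at this

lemma deq_of_ind {u u' : Ix → ℝ} {h K : P354J.M3} (h1 : P354J.Ind u h K) (h2 : P354J.Ind u' h K) :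
    DEq u u' := fun a b => by
  rw [hf_lin u, hf_lin u', Kf_lin u, Kf_lin u']
  simp only [fun a b => (h1 a b).1, fun a b => (h1 a b).2, fun a b => (h2 a b).1,
    fun a b => (h2 a b).2, and_self]

lemma exists_chart {y : X} (hy : y ≠ 0) :
    ∃ σ, ‖y‖ + P354E.sg σ * y 2 ≠ 0 ∧ r2 (Psi σ y) ≤ 1 := by
  obtain ⟨σ, hσ⟩ : ∃ σ, 0 ≤ P354E.sg σ * y 2 := by
    rcases le_total 0 (y 2) with c | c
    · exact ⟨true, by simpa [P354E.sg] using c⟩
    · exact ⟨false, by simpa [P354E.sg] using c⟩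
  have h0 := norm_pos_iff.2 hy
  have h1 : 0 < ‖y‖ + P354E.sg σ * y 2 := by linarith
  have h2 := EuclideanSpace.real_norm_sq_eq y
  rw [Fin.sum_univ_three] at h2
  refine ⟨σ, h1.ne', ?_⟩
  simp only [r2, Psi, div_pow, ← add_div]
  rw [div_le_one (by positivity)]
  nlinarith [sq_nonneg (y 2), mul_nonneg h0.le hσ, sq_nonneg (P354E.sg σ * y 2)]

theorem unq : UNQ := by
  rintro t d d' d'' - ⟨a, b, U, a1, b1, hU, i0, i1⟩ ⟨a', b', W, a2, b2, hW, j0, j1⟩ y hy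
  obtain ⟨σ, h1, h2⟩ := exists_chart hy
  have h3 : r2 (Psi σ y) < 4 := by linarith
  have k := deq_strip (strip_mono hU (le_max_left a a') (min_le_left b b'))
    (strip_mono hW (le_max_right a a') (min_le_right b b')) (max_lt a1 a2) (lt_min b1 b2)
    (fun σ z hz => deq_of_ind (i0 σ z hz) (j0 σ z hz)) σ _ h3
  have e := ((P354JK.inv σ).2 y hy h1).2.2
  have e1 := e d' _ (i1 σ _ h3)
  have e2 := e d'' _ (j1 σ _ h3)
  exact ⟨Matrix.ext fun i j => (e1 i j).1.symm.trans ((k _ _).1.trans (e2 i j).1),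
    Matrix.ext fun i j => (e1 i j).2.symm.trans ((k _ _).2.trans (e2 i j).2)⟩

end Vale.Agent.P354QF
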